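/-
S0453 library, T3b: abstract "lattice core" of the invariant sector of the three-row table lemma
(helper25). No Perron-Frobenius: monotone likelihood ratio + Chebyshev's sum inequality.

Setting: a finite set `T` with three level functions `lev r`, with `lev 0 + lev 1 + lev 2 = m`,
and the number of points with given levels `y` is `K * ∏ ψ r (y r)`, `ψ r` positive and log-concave.
Then an eigenfunction of `∑ r, E[· | lev r]` with eigenvalue `τ > 2` is constant on `T`.
-/
import Crest.Agent.Lib.Switch.Avg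

set_option autoImplicit false

namespace Crest.Agent.Lib.Switch

open Finset

section Generic

/-- Two-point (TP2) comparison of weighted means of a monotone function. -/
theorem tp2_sum (L : Finset ℕ) (h p q : ℕ → ℝ) (hm : Monotone h)
    (htp : ∀ i ∈ L, ∀ j ∈ L, i < j → p j * q i ≤ p i * q j) :
    (∑ j ∈ L, h j * p j) * (∑ i ∈ L, q i) ≤ (∑ i ∈ L, h i * q i) * (∑ j ∈ L, p j) := by
  have key : (∑ i ∈ L, h i * q i) * (∑ j ∈ L, p j) - (∑ j ∈ L, h j * p j) * (∑ i ∈ L, q i) =
      (1 / 2) * ∑ i ∈ L, ∑ j ∈ L, (h j - h i) * (p i * q j - p j * q i) := by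
    have e1 : (∑ i ∈ L, h i * q i) * (∑ j ∈ L, p j) = ∑ i ∈ L, ∑ j ∈ L, h i * q i * p j := by
      rw [sum_mul_sum]
    have e2 : (∑ j ∈ L, h j * p j) * (∑ i ∈ L, q i) = ∑ i ∈ L, ∑ j ∈ L, h i * p i * q j := by
      rw [sum_mul_sum]
    have e3 : ∑ i ∈ L, ∑ j ∈ L, h j * q j * p i = ∑ i ∈ L, ∑ j ∈ L, h i * q i * p j := by
      rw [sum_comm]
    have e4 : ∑ i ∈ L, ∑ j ∈ L, h j * p j * q i = ∑ i ∈ L, ∑ j ∈ L, h i * p i * q j := by
      rw [sum_comm]
    have e5 : ∑ i ∈ L, ∑ j ∈ L, (h j - h i) * (p i * q j - p j * q i) =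
        ∑ i ∈ L, ∑ j ∈ L, h j * q j * p i - ∑ i ∈ L, ∑ j ∈ L, h j * p j * q i
          - ∑ i ∈ L, ∑ j ∈ L, h i * p i * q j + ∑ i ∈ L, ∑ j ∈ L, h i * q i * p j := by
      simp only [← sum_sub_distrib, ← sum_add_distrib]
      refine sum_congr rfl fun i _ => sum_congr rfl fun j _ => ?_
      ring
    rw [e1, e2, e5, e3, e4]
    ring
  have hnn : 0 ≤ ∑ i ∈ L, ∑ j ∈ L, (h j - h i) * (p i * q j - p j * q i) := by
    refine sum_nonneg fun i hi => sum_nonneg fun j hj => ?_
    rcases lt_trichotomy i j with hij | hij | hij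
    · have h1 : 0 ≤ h j - h i := sub_nonneg.mpr (hm hij.le)
      have h2 : 0 ≤ p i * q j - p j * q i := sub_nonneg.mpr (htp i hi j hj hij)
      exact mul_nonneg h1 h2
    · subst hij
      simp
    · have h1 : h j - h i ≤ 0 := sub_nonpos.mpr (hm hij.le)
      have h2 : p i * q j - p j * q i ≤ 0 := sub_nonpos.mpr (htp j hj i hi hij)
      exact mul_nonneg_of_nonpos_of_nonpos h1 h2
  linarith [key]

/-- Covariance-type bilinear form, counting normalisation. -/
noncomputable def cov {β : Type*} (T : Finset β) (u v : β → ℝ) : ℝ :=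
  (T.card : ℝ) * ∑ a ∈ T, u a * v a - (∑ a ∈ T, u a) * (∑ a ∈ T, v a)

theorem cov_eq_double_sum {β : Type*} (T : Finset β) (u v : β → ℝ) :
    cov T u v = (1 / 2) * ∑ a ∈ T, ∑ b ∈ T, (u a - u b) * (v a - v b) := by
  have e1 : ∑ a ∈ T, ∑ b ∈ T, (u a - u b) * (v a - v b) =
      ∑ a ∈ T, ∑ b ∈ T, u a * v a - ∑ a ∈ T, ∑ b ∈ T, u a * v b
        - ∑ a ∈ T, ∑ b ∈ T, u b * v a + ∑ a ∈ T, ∑ b ∈ T, u b * v b := by
    simp only [← sum_sub_distrib, ← sum_add_distrib]
    refine sum_congr rfl fun i _ => sum_congr rfl fun j _ => ?_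
    ring
  have e2 : ∑ a ∈ T, ∑ b ∈ T, u a * v a = (T.card : ℝ) * ∑ a ∈ T, u a * v a := by
    simp [sum_const, nsmul_eq_mul, mul_sum]
  have e3 : ∑ a ∈ T, ∑ b ∈ T, u b * v b = (T.card : ℝ) * ∑ a ∈ T, u a * v a := by
    simp [sum_const, nsmul_eq_mul]
  have e4 : ∑ a ∈ T, ∑ b ∈ T, u a * v b = (∑ a ∈ T, u a) * (∑ a ∈ T, v a) := by
    rw [sum_mul_sum]
  have e5 : ∑ a ∈ T, ∑ b ∈ T, u b * v a = (∑ a ∈ T, u a) * (∑ a ∈ T, v a) := by
    rw [sum_comm, sum_mul_sum]
  unfold cov
  rw [e1, e2, e3, e4, e5]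
  ring

theorem cov_self_nonneg {β : Type*} (T : Finset β) (u : β → ℝ) : 0 ≤ cov T u u := by
  rw [cov_eq_double_sum]
  have : 0 ≤ ∑ a ∈ T, ∑ b ∈ T, (u a - u b) * (u a - u b) :=
    sum_nonneg fun a _ => sum_nonneg fun b _ => mul_self_nonneg _
  linarith

theorem eq_of_cov_self_eq_zero {β : Type*} (T : Finset β) (u : β → ℝ) (h : cov T u u = 0) :
    ∀ a ∈ T, ∀ b ∈ T, u a = u b := by
  rw [cov_eq_double_sum] at h
  have h0 : ∑ a ∈ T, ∑ b ∈ T, (u a - u b) * (u a - u b) = 0 := by linarith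
  intro a ha b hb
  have h1 := (sum_eq_zero_iff_of_nonneg (fun a _ => sum_nonneg fun b _ => mul_self_nonneg _)).mp
    h0 a ha
  have h2 := (sum_eq_zero_iff_of_nonneg (fun b _ => mul_self_nonneg _)).mp h1 b hb
  have h3 : u a - u b = 0 := mul_self_eq_zero.mp h2
  linarith

/-- Chebyshev's sum inequality along a level function. -/
theorem cov_nonneg_of_monotone {β : Type*} (T : Finset β) (lv : β → ℕ) (m : ℕ)
    (hlv : ∀ a ∈ T, lv a ≤ m) (u v : ℕ → ℝ)
    (hu : ∀ i j, i ≤ j → j ≤ m → u i ≤ u j) (hv : ∀ i j, i ≤ j → j ≤ m → v i ≤ v j) :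
    0 ≤ cov T (fun a => u (lv a)) (fun a => v (lv a)) := by
  rw [cov_eq_double_sum]
  have : 0 ≤ ∑ a ∈ T, ∑ b ∈ T, (u (lv a) - u (lv b)) * (v (lv a) - v (lv b)) := by
    refine sum_nonneg fun a ha => sum_nonneg fun b hb => ?_
    rcases le_total (lv a) (lv b) with h | h
    · exact mul_nonneg_of_nonpos_of_nonpos (sub_nonpos.mpr (hu _ _ h (hlv b hb)))
        (sub_nonpos.mpr (hv _ _ h (hlv b hb)))
    · exact mul_nonneg (sub_nonneg.mpr (hu _ _ h (hlv a ha))) (sub_nonneg.mpr (hv _ _ h (hlv a ha)))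
  linarith

end Generic

section Core

variable {β : Type*}

/-- The hypotheses of the lattice core. -/
structure LatticeData (T : Finset β) (lev : Fin 3 → β → ℕ) (m : ℕ) (K : ℝ)
    (ψ : Fin 3 → ℕ → ℝ) : Prop where
  sum_lev : ∀ a ∈ T, ∑ r, lev r a = m
  count : ∀ y : Fin 3 → ℕ, ∑ r, y r = m →
    (((T.filter fun a => ∀ r, lev r a = y r).card : ℕ) : ℝ) = K * ∏ r, ψ r (y r)
  K_pos : 0 < K
  ψ_pos : ∀ r j, 0 < ψ r j
  lc : ∀ r i j, i ≤ j → ψ r i * ψ r (j + 1) ≤ ψ r (i + 1) * ψ r j

variable {T : Finset β} {lev : Fin 3 → β → ℕ} {m : ℕ} {K : ℝ} {ψ : Fin 3 → ℕ → ℝ}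

/-- Decomposition of `Fin 3`. -/
theorem fin3_third : ∀ r s : Fin 3, r ≠ s → ∃ o : Fin 3, o ≠ r ∧ o ≠ s ∧
    (univ : Finset (Fin 3)) = {r, s, o} := by decide

theorem fin3_sum_eq {γ : Type*} [AddCommMonoid γ] {r s o : Fin 3} (hrs : r ≠ s) (hor : o ≠ r)
    (hos : o ≠ s) (hu : (univ : Finset (Fin 3)) = {r, s, o}) (f : Fin 3 → γ) :
    ∑ i, f i = f r + (f s + f o) := by
  rw [hu, sum_insert, sum_insert, sum_singleton]
  · simpa using hos.symm
  · simp only [mem_insert, mem_singleton, not_or]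
    exact ⟨hrs, hor.symm⟩

theorem fin3_prod_eq {γ : Type*} [CommMonoid γ] {r s o : Fin 3} (hrs : r ≠ s) (hor : o ≠ r)
    (hos : o ≠ s) (hu : (univ : Finset (Fin 3)) = {r, s, o}) (f : Fin 3 → γ) :
    ∏ i, f i = f r * (f s * f o) := by
  rw [hu, prod_insert, prod_insert, prod_singleton]
  · simpa using hos.symm
  · simp only [mem_insert, mem_singleton, not_or]
    exact ⟨hrs, hor.symm⟩

/-- The level vector with `lev r = t`, `lev s = j`. -/
def vec (r s : Fin 3) (m t j : ℕ) : Fin 3 → ℕ :=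
  fun i => if i = r then t else if i = s then j else m - t - j

theorem LatticeData.count_two (H : LatticeData T lev m K ψ) {r s o : Fin 3} (hrs : r ≠ s)
    (hor : o ≠ r) (hos : o ≠ s) (hu : (univ : Finset (Fin 3)) = {r, s, o}) {t j : ℕ}
    (htj : t + j ≤ m) :
    (((T.filter fun a => lev r a = t ∧ lev s a = j).card : ℕ) : ℝ) =
      K * (ψ r t * (ψ s j * ψ o (m - t - j))) := by
  have hvr : vec r s m t j r = t := by simp [vec]
  have hvs : vec r s m t j s = j := by simp [vec, hrs.symm]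
  have hvo : vec r s m t j o = m - t - j := by simp [vec, hor, hos]
  have hsum : ∑ i, vec r s m t j i = m := by
    rw [fin3_sum_eq hrs hor hos hu, hvr, hvs, hvo]
    omega
  have hf : (T.filter fun a => lev r a = t ∧ lev s a = j) =
      T.filter fun a => ∀ i, lev i a = vec r s m t j i := by
    ext a
    simp only [mem_filter]
    constructor
    · rintro ⟨ha, h1, h2⟩
      refine ⟨ha, fun i => ?_⟩
      have hs := H.sum_lev a ha
      rw [fin3_sum_eq hrs hor hos hu] at hs
      have hi : i ∈ ({r, s, o} : Finset (Fin 3)) := hu ▸ mem_univ i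
      simp only [mem_insert, mem_singleton] at hi
      rcases hi with rfl | rfl | rfl
      · rw [hvr, h1]
      · rw [hvs, h2]
      · rw [hvo]; omega
    · rintro ⟨ha, h⟩
      refine ⟨ha, ?_, ?_⟩
      · rw [h r, hvr]
      · rw [h s, hvs]
  rw [hf, H.count _ hsum, fin3_prod_eq hrs hor hos hu, hvr, hvs, hvo]

theorem LatticeData.lev_le (H : LatticeData T lev m K ψ) (r : Fin 3) {a : β} (ha : a ∈ T) :
    lev r a ≤ m := by
  have := H.sum_lev a ha
  rw [← this]
  exact single_le_sum (f := fun i => lev i a) (fun _ _ => Nat.zero_le _) (mem_univ r)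

/-- Every level vector is attained. -/
theorem LatticeData.exists_of_sum (H : LatticeData T lev m K ψ) (y : Fin 3 → ℕ) (hy : ∑ r, y r = m) :
    ∃ a ∈ T, ∀ r, lev r a = y r := by
  have h := H.count y hy
  have hpos : 0 < K * ∏ r, ψ r (y r) :=
    mul_pos H.K_pos (prod_pos fun r _ => H.ψ_pos r _)
  rw [← h] at hpos
  have hpos' : 0 < (T.filter fun a => ∀ r, lev r a = y r).card := by exact_mod_cast hpos
  obtain ⟨a, ha⟩ := card_pos.mp hpos'
  exact ⟨a, (mem_filter.mp ha).1, (mem_filter.mp ha).2⟩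

theorem LatticeData.exists_level (H : LatticeData T lev m K ψ) (r : Fin 3) {t : ℕ} (ht : t ≤ m) :
    ∃ a ∈ T, lev r a = t := by
  -- choose a vector with `r ↦ t`, and the rest on another coordinate
  obtain ⟨s, hs⟩ : ∃ s : Fin 3, s ≠ r := by
    revert r; decide
  obtain ⟨o, hor, hos, hu⟩ := fin3_third r s hs.symm
  have hvr : vec r s m t 0 r = t := by simp [vec]
  have hvs : vec r s m t 0 s = 0 := by simp [vec, hs]
  have hvo : vec r s m t 0 o = m - t - 0 := by simp [vec, hor, hos]
  have hsum : ∑ i, vec r s m t 0 i = m := by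
    rw [fin3_sum_eq hs.symm hor hos hu, hvr, hvs, hvo]
    omega
  obtain ⟨a, ha, h⟩ := H.exists_of_sum _ hsum
  exact ⟨a, ha, by rw [h r, hvr]⟩

/-- Conditional mean of `F` at level `t` of `lev r`. -/
noncomputable def condL (T : Finset β) (lev : Fin 3 → β → ℕ) (r : Fin 3) (F : β → ℝ) (t : ℕ) : ℝ :=
  (∑ a ∈ T.filter (fun a => lev r a = t), F a) / ((T.filter (fun a => lev r a = t)).card : ℝ)

theorem avg_eq_condL (r : Fin 3) (F : β → ℝ) (a : β) :
    avg T (lev r) F a = condL T lev r F (lev r a) := rfl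

/-- The weights of `lev s` given `lev r = t`. -/
noncomputable def wt (ψs ψo : ℕ → ℝ) (L j : ℕ) : ℝ := ψs j * ψo (L - j)

/-- Conditional mean of a function of `lev s` given `lev r = t`, explicit. -/
theorem LatticeData.condL_eq (H : LatticeData T lev m K ψ) {r s o : Fin 3} (hrs : r ≠ s)
    (hor : o ≠ r) (hos : o ≠ s) (hu : (univ : Finset (Fin 3)) = {r, s, o}) {t : ℕ} (ht : t ≤ m)
    (h : ℕ → ℝ) :
    condL T lev r (fun a => h (lev s a)) t =
      (∑ j ∈ range (m - t + 1), h j * wt (ψ s) (ψ o) (m - t) j) /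
        (∑ j ∈ range (m - t + 1), wt (ψ s) (ψ o) (m - t) j) := by
  have hmaps : ∀ a ∈ T.filter (fun a => lev r a = t), lev s a ∈ range (m - t + 1) := by
    intro a ha
    obtain ⟨ha1, ha2⟩ := mem_filter.mp ha
    have hs := H.sum_lev a ha1
    rw [fin3_sum_eq hrs hor hos hu] at hs
    rw [mem_range]
    omega
  have hfib : ∀ j ∈ range (m - t + 1),
      (((T.filter (fun a => lev r a = t)).filter (fun a => lev s a = j)).card : ℝ) =
        K * ψ r t * wt (ψ s) (ψ o) (m - t) j := by
    intro j hj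
    have htj : t + j ≤ m := by
      rw [mem_range] at hj
      omega
    rw [filter_filter, H.count_two hrs hor hos hu htj]
    unfold wt
    have : m - t - j = m - t - j := rfl
    ring
  have hnum : ∑ a ∈ T.filter (fun a => lev r a = t), h (lev s a) =
      K * ψ r t * ∑ j ∈ range (m - t + 1), h j * wt (ψ s) (ψ o) (m - t) j := by
    rw [← sum_fiberwise_of_maps_to hmaps, mul_sum]
    refine sum_congr rfl fun j hj => ?_
    have : ∀ a ∈ (T.filter (fun a => lev r a = t)).filter (fun a => lev s a = j),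
        h (lev s a) = h j := fun a ha => by rw [(mem_filter.mp ha).2]
    rw [sum_congr rfl this, sum_const, nsmul_eq_mul, hfib j hj]
    ring
  have hden : ((T.filter (fun a => lev r a = t)).card : ℝ) =
      K * ψ r t * ∑ j ∈ range (m - t + 1), wt (ψ s) (ψ o) (m - t) j := by
    rw [card_eq_sum_card_fiberwise hmaps, Nat.cast_sum, mul_sum]
    exact sum_congr rfl hfib
  have hKr : K * ψ r t ≠ 0 := (mul_pos H.K_pos (H.ψ_pos r t)).ne'
  unfold condL
  rw [hnum, hden, mul_div_mul_left _ _ hKr]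

theorem wt_pos (H : LatticeData T lev m K ψ) (s o : Fin 3) (L j : ℕ) :
    0 < wt (ψ s) (ψ o) L j := mul_pos (H.ψ_pos s j) (H.ψ_pos o _)

/-- MONOTONE LIKELIHOOD RATIO: the conditional mean of a nondecreasing function of `lev s`
decreases with the level of `lev r`. -/
theorem LatticeData.condL_anti (H : LatticeData T lev m K ψ) {r s : Fin 3} (hrs : r ≠ s)
    {t : ℕ} (ht : t < m) (h : ℕ → ℝ) (hm : Monotone h) :
    condL T lev r (fun a => h (lev s a)) (t + 1) ≤ condL T lev r (fun a => h (lev s a)) t := by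
  obtain ⟨o, hor, hos, hu⟩ := fin3_third r s hrs
  rw [H.condL_eq hrs hor hos hu (by omega), H.condL_eq hrs hor hos hu ht.le]
  obtain ⟨L, hL⟩ : ∃ L, m - t = L + 1 := ⟨m - t - 1, by omega⟩
  have hL' : m - (t + 1) = L := by omega
  rw [hL', hL]
  have hpos1 : 0 < ∑ j ∈ range (L + 1), wt (ψ s) (ψ o) L j :=
    sum_pos (fun j _ => wt_pos H s o L j) nonempty_range_add_one
  have hpos2 : 0 < ∑ j ∈ range (L + 1 + 1), wt (ψ s) (ψ o) (L + 1) j :=
    sum_pos (fun j _ => wt_pos H s o (L + 1) j) nonempty_range_add_one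
  rw [div_le_div_iff₀ hpos1 hpos2]
  -- extend the first sums to `range (L + 2)` with a zero weight
  set p : ℕ → ℝ := fun j => if j ≤ L then wt (ψ s) (ψ o) L j else 0 with hp
  set q : ℕ → ℝ := fun j => wt (ψ s) (ψ o) (L + 1) j with hq
  have e1 : ∑ j ∈ range (L + 1), h j * wt (ψ s) (ψ o) L j = ∑ j ∈ range (L + 1 + 1), h j * p j := by
    rw [sum_range_succ _ (L + 1)]
    have : h (L + 1) * p (L + 1) = 0 := by simp [hp]
    rw [this, add_zero]
    refine sum_congr rfl fun j hj => ?_
    have : j ≤ L := by rw [mem_range] at hj; omega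
    simp [hp, this]
  have e2 : ∑ j ∈ range (L + 1), wt (ψ s) (ψ o) L j = ∑ j ∈ range (L + 1 + 1), p j := by
    rw [sum_range_succ _ (L + 1)]
    have : p (L + 1) = 0 := by simp [hp]
    rw [this, add_zero]
    refine sum_congr rfl fun j hj => ?_
    have : j ≤ L := by rw [mem_range] at hj; omega
    simp [hp, this]
  rw [e1, e2]
  refine tp2_sum (range (L + 1 + 1)) h p q hm ?_
  intro i hi j hj hij
  have hjL : j ≤ L + 1 := by rw [mem_range] at hj; omega
  by_cases hj' : j ≤ L
  · have hi' : i ≤ L := by omega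
    simp only [hp, hq, hj', hi', if_true]
    unfold wt
    -- `ψ_o (L - j) * ψ_o (L + 1 - i) ≤ ψ_o (L - i) * ψ_o (L + 1 - j)`
    have hD : L - j ≤ L - i - 0 := by omega
    obtain ⟨D, hDe⟩ : ∃ D, L - j = D := ⟨_, rfl⟩
    obtain ⟨E, hEe⟩ : ∃ E, L - i = E := ⟨_, rfl⟩
    have e3 : L + 1 - i = E + 1 := by omega
    have e4 : L + 1 - j = D + 1 := by omega
    have hDE : D ≤ E := by omega
    rw [hDe, hEe, e3, e4]
    have hlc := H.lc o D E hDE
    have hps : 0 ≤ ψ s j * ψ s i := (mul_pos (H.ψ_pos s j) (H.ψ_pos s i)).le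
    nlinarith [mul_le_mul_of_nonneg_left hlc hps]
  · have hpj : p j = 0 := by simp [hp, hj']
    rw [hpj, zero_mul]
    have hi' : i ≤ L := by omega
    have : 0 < p i := by
      simp only [hp, hi', if_true]
      exact wt_pos H s o L i
    exact (mul_pos this (wt_pos H s o (L + 1) j)).le

end Core

section CovAlg

variable {β : Type*} (T : Finset β)

theorem cov_sum_right {ι : Type*} (S : Finset ι) (u : β → ℝ) (v : ι → β → ℝ) :
    cov T u (fun a => ∑ s ∈ S, v s a) = ∑ s ∈ S, cov T u (v s) := by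
  unfold cov
  have e1 : ∑ a ∈ T, u a * ∑ s ∈ S, v s a = ∑ s ∈ S, ∑ a ∈ T, u a * v s a := by
    simp only [mul_sum]
    rw [sum_comm]
  have e2 : ∑ a ∈ T, ∑ s ∈ S, v s a = ∑ s ∈ S, ∑ a ∈ T, v s a := sum_comm
  simp only []
  rw [e1, e2, mul_sum, mul_sum, ← sum_sub_distrib]

theorem cov_sub_right (u v w : β → ℝ) :
    cov T u (fun a => v a - w a) = cov T u v - cov T u w := by
  unfold cov
  have e1 : ∑ a ∈ T, u a * (v a - w a) = ∑ a ∈ T, u a * v a - ∑ a ∈ T, u a * w a := by
    rw [← sum_sub_distrib]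
    exact sum_congr rfl fun a _ => by ring
  rw [e1, sum_sub_distrib]
  ring

theorem cov_neg_right (u v : β → ℝ) :
    cov T u (fun a => - v a) = - cov T u v := by
  unfold cov
  have e1 : ∑ a ∈ T, u a * (- v a) = - ∑ a ∈ T, u a * v a := by
    rw [← sum_neg_distrib]
    exact sum_congr rfl fun a _ => by ring
  rw [e1, sum_neg_distrib]
  ring

theorem cov_smul_right (c : ℝ) (u v : β → ℝ) :
    cov T u (fun a => c * v a) = c * cov T u v := by
  unfold cov
  have e1 : ∑ a ∈ T, u a * (c * v a) = c * ∑ a ∈ T, u a * v a := by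
    rw [mul_sum]
    exact sum_congr rfl fun a _ => by ring
  rw [e1, ← mul_sum]
  ring

theorem cov_comm (u v : β → ℝ) : cov T u v = cov T v u := by
  unfold cov
  have e1 : ∑ a ∈ T, u a * v a = ∑ a ∈ T, v a * u a := sum_congr rfl fun a _ => mul_comm _ _
  rw [e1]
  ring

theorem cov_congr_right {u v w : β → ℝ} (h : ∀ a ∈ T, v a = w a) : cov T u v = cov T u w := by
  unfold cov
  rw [sum_congr rfl (g := fun a => u a * w a) fun a ha => by rw [h a ha], sum_congr rfl h]

theorem cov_sum_sum (u : Fin 3 → β → ℝ) :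
    cov T (fun a => ∑ r, u r a) (fun a => ∑ r, u r a) = ∑ r, ∑ s, cov T (u r) (u s) := by
  rw [cov_sum_right]
  refine sum_congr rfl fun s _ => ?_
  rw [cov_comm, cov_sum_right]

end CovAlg

section AvgAlg

variable {β γ : Type*} [DecidableEq γ] (T : Finset β) (κ : β → γ)

theorem avg_congr_on {f g : β → ℝ} (h : ∀ a ∈ T, f a = g a) (a : β) :
    avg T κ f a = avg T κ g a := by
  unfold avg
  congr 1
  exact sum_congr rfl fun b hb => h b (mem_filter.mp hb).1

theorem avg_add' (f g : β → ℝ) (a : β) :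
    avg T κ (fun b => f b + g b) a = avg T κ f a + avg T κ g a := by
  unfold avg
  rw [sum_add_distrib, add_div]

theorem avg_sum' {ι : Type*} (S : Finset ι) (f : ι → β → ℝ) (a : β) :
    avg T κ (fun b => ∑ s ∈ S, f s b) a = ∑ s ∈ S, avg T κ (f s) a := by
  unfold avg
  rw [sum_comm, sum_div]

theorem avg_mul' (c : ℝ) (f : β → ℝ) (a : β) :
    avg T κ (fun b => c * f b) a = c * avg T κ f a := by
  unfold avg
  rw [← mul_sum, mul_div_assoc]

/-- `avg` of a function of the key. -/
theorem avg_of_key {a : β} (ha : a ∈ T) (h : γ → ℝ) :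
    avg T κ (fun b => h (κ b)) a = h (κ a) := by
  have hne : (T.filter (fun b => κ b = κ a)).card ≠ 0 := by
    rw [card_ne_zero]
    exact ⟨a, mem_filter.mpr ⟨ha, rfl⟩⟩
  have hc : ((T.filter (fun b => κ b = κ a)).card : ℝ) ≠ 0 := by exact_mod_cast hne
  unfold avg
  have : ∀ b ∈ T.filter (fun b => κ b = κ a), h (κ b) = h (κ a) := fun b hb => by
    rw [(mem_filter.mp hb).2]
  rw [sum_congr rfl this, sum_const, nsmul_eq_mul]
  field_simp

/-- `cov(u, E v) = cov(u, v)` for `u` a function of the key. -/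
theorem cov_avg_right (h : γ → ℝ) (v : β → ℝ) :
    cov T (fun b => h (κ b)) (avg T κ v) = cov T (fun b => h (κ b)) v := by
  unfold cov
  rw [sum_avg]
  congr 2
  have e := sum_avg_mul T κ (fun b => h (κ b)) v
  rw [← e]
  exact sum_congr rfl fun a ha => by rw [avg_of_key T κ ha h]

end AvgAlg

section Main

variable {β : Type*} {T : Finset β} {lev : Fin 3 → β → ℕ} {m : ℕ} {K : ℝ} {ψ : Fin 3 → ℕ → ℝ}

theorem condL_add (r : Fin 3) (f g : β → ℝ) (t : ℕ) :
    condL T lev r (fun a => f a + g a) t = condL T lev r f t + condL T lev r g t := by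
  unfold condL
  rw [sum_add_distrib, add_div]

theorem condL_sub (r : Fin 3) (f g : β → ℝ) (t : ℕ) :
    condL T lev r (fun a => f a - g a) t = condL T lev r f t - condL T lev r g t := by
  unfold condL
  rw [sum_sub_distrib, sub_div]

/-- Total variation of a function up to `t`. -/
noncomputable def totVar (G : ℕ → ℝ) (t : ℕ) : ℝ := ∑ j ∈ range t, |G (j + 1) - G j|

theorem totVar_succ (G : ℕ → ℝ) (t : ℕ) : totVar G (t + 1) = totVar G t + |G (t + 1) - G t| := by
  unfold totVar
  rw [sum_range_succ]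

theorem totVar_mono (G : ℕ → ℝ) : Monotone (totVar G) :=
  monotone_nat_of_le_succ fun t => by
    rw [totVar_succ]
    linarith [abs_nonneg (G (t + 1) - G t)]

theorem totVar_add_mono (G : ℕ → ℝ) : Monotone (fun t => totVar G t + G t) :=
  monotone_nat_of_le_succ fun t => by
    rw [totVar_succ]
    linarith [neg_abs_le (G (t + 1) - G t)]

theorem totVar_sub_mono (G : ℕ → ℝ) : Monotone (fun t => totVar G t - G t) :=
  monotone_nat_of_le_succ fun t => by
    rw [totVar_succ]
    linarith [le_abs_self (G (t + 1) - G t)]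

/-- **The lattice core**: an eigenfunction of `∑_r E[· | lev r]` with eigenvalue `τ > 2` is constant. -/
theorem lattice_core (H : LatticeData T lev m K ψ) (F : β → ℝ) (τ : ℝ) (hτ : 2 < τ)
    (heig : ∀ a ∈ T, ∑ r, avg T (lev r) F a = τ * F a) :
    ∀ a ∈ T, ∀ b ∈ T, F a = F b := by
  classical
  set G : Fin 3 → ℕ → ℝ := fun r => condL T lev r F with hG
  have hEG : ∀ r a, avg T (lev r) F a = G r (lev r a) := fun r a => rfl
  set lam : ℝ := τ - 1 with hlam
  have hlam1 : 1 < lam := by rw [hlam]; linarith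
  -- eigen-equation in terms of `G`
  have heig' : ∀ a ∈ T, ∑ r, G r (lev r a) = τ * F a := fun a ha => heig a ha
  -- Step B
  have hB : ∀ r : Fin 3, ∀ t ≤ m, lam * G r t =
      ∑ s ∈ univ.erase r, condL T lev r (fun a => G s (lev s a)) t := by
    intro r t ht
    obtain ⟨a, ha, hat⟩ := H.exists_level r ht
    have h1 : avg T (lev r) (fun b => ∑ s, G s (lev s b)) a = avg T (lev r) (fun b => τ * F b) a :=
      avg_congr_on T (lev r) heig' a
    rw [avg_sum', avg_mul', hEG, hat] at h1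
    rw [← add_sum_erase univ _ (mem_univ r)] at h1
    have h2 : avg T (lev r) (G r ∘ lev r) a = G r t := by
      have := avg_of_key T (lev r) ha (G r)
      rw [hat] at this
      exact this
    have h3 : avg T (lev r) (fun b => G r (lev r b)) a = G r t := h2
    rw [h3] at h1
    have h4 : ∀ s ∈ univ.erase r, avg T (lev r) (fun b => G s (lev s b)) a =
        condL T lev r (fun b => G s (lev s b)) t := by
      intro s _
      rw [avg_eq_condL, hat]
    rw [sum_congr rfl h4] at h1
    rw [hlam]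
    linarith
  set U : Fin 3 → ℕ → ℝ := fun r => totVar (G r) with hU
  -- Step: increments of the conditional means of `G` are controlled by those of `U`
  have hinc : ∀ r s : Fin 3, r ≠ s → ∀ t < m,
      |condL T lev r (fun a => G s (lev s a)) (t + 1) - condL T lev r (fun a => G s (lev s a)) t| ≤
        condL T lev r (fun a => U s (lev s a)) t - condL T lev r (fun a => U s (lev s a)) (t + 1) := by
    intro r s hrs t ht
    have h1 := H.condL_anti hrs ht _ (totVar_add_mono (G s))
    have h2 := H.condL_anti hrs ht _ (totVar_sub_mono (G s))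
    simp only [condL_add, condL_sub] at h1 h2
    rw [abs_le]
    constructor <;> linarith
  -- Step C
  set Hf : Fin 3 → ℕ → ℝ := fun r t =>
    - (∑ s ∈ univ.erase r, condL T lev r (fun a => U s (lev s a)) t) - lam * U r t with hHf
  have hstep : ∀ r : Fin 3, ∀ t < m, Hf r t ≤ Hf r (t + 1) := by
    intro r t ht
    have h1 : lam * |G r (t + 1) - G r t| ≤
        ∑ s ∈ univ.erase r, (condL T lev r (fun a => U s (lev s a)) t -
          condL T lev r (fun a => U s (lev s a)) (t + 1)) := by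
      have e : lam * (G r (t + 1) - G r t) =
          ∑ s ∈ univ.erase r, (condL T lev r (fun a => G s (lev s a)) (t + 1) -
            condL T lev r (fun a => G s (lev s a)) t) := by
        rw [sum_sub_distrib, ← hB r (t + 1) ht, ← hB r t ht.le]
        ring
      have hl0 : 0 ≤ lam := by linarith
      calc lam * |G r (t + 1) - G r t| = |lam * (G r (t + 1) - G r t)| := by
            rw [abs_mul, abs_of_nonneg hl0]
        _ ≤ _ := by
            rw [e]
            refine (abs_sum_le_sum_abs _ _).trans (sum_le_sum fun s hs => ?_)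
            exact hinc r s (mem_erase.mp hs).1.symm t ht
    have h2 : U r (t + 1) = U r t + |G r (t + 1) - G r t| := totVar_succ _ _
    simp only [hHf]
    rw [h2]
    rw [sum_sub_distrib] at h1
    nlinarith
  have hHmono : ∀ r : Fin 3, ∀ i j, i ≤ j → j ≤ m → Hf r i ≤ Hf r j := by
    intro r i j hij
    induction j, hij using Nat.le_induction with
    | base => intro _; exact le_refl _
    | succ j hij ih =>
      intro hj
      exact (ih (by omega)).trans (hstep r j (by omega))
  -- Step D: Chebyshev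
  set u : Fin 3 → β → ℝ := fun r a => U r (lev r a) with hu
  have hcheb : ∀ r : Fin 3, 0 ≤ cov T (u r) (fun a => Hf r (lev r a)) := by
    intro r
    exact cov_nonneg_of_monotone T (lev r) m (fun a ha => H.lev_le r ha) (U r) (Hf r)
      (fun i j hij _ => totVar_mono _ hij) (hHmono r)
  -- Step E, F
  have hE : ∀ r : Fin 3, cov T (u r) (fun a => Hf r (lev r a)) =
      - (∑ s ∈ univ.erase r, cov T (u r) (u s)) - lam * cov T (u r) (u r) := by
    intro r
    simp only [hHf]
    rw [cov_sub_right, cov_neg_right, cov_sum_right, cov_smul_right]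
    congr 2
    refine sum_congr rfl fun s _ => ?_
    have e1 : (fun a => condL T lev r (fun b => U s (lev s b)) (lev r a)) =
        avg T (lev r) (u s) := rfl
    rw [e1]
    exact cov_avg_right T (lev r) (U r) (u s)
  -- Step G
  have hvar : ∀ r, 0 ≤ cov T (u r) (u r) := fun r => cov_self_nonneg T (u r)
  have hsumvar : 0 ≤ ∑ r, ∑ s, cov T (u r) (u s) := by
    rw [← cov_sum_sum]
    exact cov_self_nonneg T _
  have hsplit : ∑ r, ∑ s, cov T (u r) (u s) =
      ∑ r, cov T (u r) (u r) + ∑ r, ∑ s ∈ univ.erase r, cov T (u r) (u s) := by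
    rw [← sum_add_distrib]
    refine sum_congr rfl fun r _ => ?_
    rw [add_sum_erase univ (fun s => cov T (u r) (u s)) (mem_univ r)]
  have hsumcheb : 0 ≤ ∑ r, (- (∑ s ∈ univ.erase r, cov T (u r) (u s)) - lam * cov T (u r) (u r)) :=
    sum_nonneg fun r _ => by rw [← hE r]; exact hcheb r
  rw [sum_sub_distrib, sum_neg_distrib, ← mul_sum] at hsumcheb
  have htot : ∑ r, cov T (u r) (u r) = 0 := by
    have h0 : 0 ≤ ∑ r, cov T (u r) (u r) := sum_nonneg fun r _ => hvar r
    nlinarith
  have hzero : ∀ r, cov T (u r) (u r) = 0 := fun r =>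
    (sum_eq_zero_iff_of_nonneg (fun r _ => hvar r)).mp htot r (mem_univ r)
  -- Step H
  have hGstep : ∀ r : Fin 3, ∀ t < m, G r (t + 1) = G r t := by
    intro r t ht
    obtain ⟨a, ha, hat⟩ := H.exists_level r (t := t) ht.le
    obtain ⟨b, hb, hbt⟩ := H.exists_level r (t := t + 1) ht
    have h1 := eq_of_cov_self_eq_zero T (u r) (hzero r) a ha b hb
    simp only [hu, hat, hbt] at h1
    have h2 : U r (t + 1) = U r t + |G r (t + 1) - G r t| := totVar_succ _ _
    have h3 : |G r (t + 1) - G r t| = 0 := by linarith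
    have h4 := abs_eq_zero.mp h3
    linarith
  have hGconst : ∀ r : Fin 3, ∀ t ≤ m, G r t = G r 0 := by
    intro r t
    induction t with
    | zero => intro _; rfl
    | succ t ih =>
      intro ht
      rw [hGstep r t (by omega), ih (by omega)]
    
  intro a ha b hb
  have h1 := heig' a ha
  have h2 := heig' b hb
  have h3 : ∑ r, G r (lev r a) = ∑ r, G r (lev r b) :=
    sum_congr rfl fun r _ => by
      rw [hGconst r _ (H.lev_le r ha), hGconst r _ (H.lev_le r hb)]
  have hτ0 : τ ≠ 0 := by linarith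
  have h4 : τ * F a = τ * F b := by rw [← h1, ← h2, h3]
  exact mul_left_cancel₀ hτ0 h4

end Main

end Crest.Agent.Lib.Switch
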