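/-
S0453 library, the algebraic outer shell of T8 (helper8): from the inequality on each class to
the global inequality with the overlap terms (AM-GM, Titu over the blocks, sum over the classes).
-/
import Crest.Agent.Lib.Switch.Defs

set_option autoImplicit false

namespace Crest.Agent.Lib.Switch

open Finset

section Shell

variable {α β γ : Type*} [DecidableEq β] [DecidableEq γ]

/-- Titu over the `κ`-blocks of a class (blocks without centre point contribute `0`). -/
theorem titu_class (Ω : Finset α) (κ : α → β) (cl : α → γ) (C : α → Prop) [DecidablePred C]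
    (hb : ∀ a ∈ Ω, ∀ b ∈ Ω, κ a = κ b → cl a = cl b) (g : α → ℝ) (c : γ) :
    (∑ a ∈ Ω.filter (fun a => cl a = c ∧ C a), g a) ^ 2 /
        ((Ω.filter (fun a => cl a = c ∧ C a)).card : ℝ) ≤
      ∑ K ∈ (Ω.filter (fun a => cl a = c)).image κ,
        (∑ a ∈ Ω.filter (fun a => κ a = K ∧ C a), g a) ^ 2 /
          ((Ω.filter (fun a => κ a = K ∧ C a)).card : ℝ) := by
  classical
  set I := (Ω.filter (fun a => cl a = c)).image κ with hI
  set S : Finset α := Ω.filter (fun a => cl a = c ∧ C a) with hS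
  -- on a block of the class, the centre part of the block lies in `S`
  have hblock : ∀ K ∈ I, S.filter (fun a => κ a = K) = Ω.filter (fun a => κ a = K ∧ C a) := by
    intro K hK
    obtain ⟨a₀, ha₀, rfl⟩ := Finset.mem_image.mp hK
    obtain ⟨ha₀Ω, ha₀c⟩ := Finset.mem_filter.mp ha₀
    ext a
    simp only [hS, mem_filter]
    constructor
    · rintro ⟨⟨h1, _, h3⟩, h4⟩
      exact ⟨h1, h4, h3⟩
    · rintro ⟨h1, h4, h3⟩
      exact ⟨⟨h1, (hb a h1 a₀ ha₀Ω h4).trans ha₀c, h3⟩, h4⟩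
  have hmaps : ∀ a ∈ S, κ a ∈ I := by
    intro a ha
    obtain ⟨h1, h2, _⟩ := Finset.mem_filter.mp ha
    exact Finset.mem_image_of_mem κ (Finset.mem_filter.mpr ⟨h1, h2⟩)
  have hsum : ∑ a ∈ S, g a = ∑ K ∈ I, ∑ a ∈ Ω.filter (fun a => κ a = K ∧ C a), g a := by
    rw [← Finset.sum_fiberwise_of_maps_to hmaps g]
    exact Finset.sum_congr rfl fun K hK => by rw [hblock K hK]
  have hcard : (S.card : ℝ) = ∑ K ∈ I, ((Ω.filter (fun a => κ a = K ∧ C a)).card : ℝ) := by
    rw [Finset.card_eq_sum_card_fiberwise hmaps]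
    push_cast
    exact Finset.sum_congr rfl fun K hK => by rw [hblock K hK]
  -- restrict to the blocks with a centre point
  set I' := I.filter (fun K => 0 < (Ω.filter (fun a => κ a = K ∧ C a)).card) with hI'
  have hzero : ∀ K ∈ I, K ∉ I' → (Ω.filter (fun a => κ a = K ∧ C a)).card = 0 := by
    intro K hK hK'
    by_contra h
    exact hK' (Finset.mem_filter.mpr ⟨hK, Nat.pos_of_ne_zero h⟩)
  have hsum' : ∑ K ∈ I, ∑ a ∈ Ω.filter (fun a => κ a = K ∧ C a), g a =
      ∑ K ∈ I', ∑ a ∈ Ω.filter (fun a => κ a = K ∧ C a), g a := by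
    symm
    refine Finset.sum_subset (Finset.filter_subset _ _) fun K hK hK' => ?_
    rw [Finset.card_eq_zero.mp (hzero K hK hK'), Finset.sum_empty]
  have hcard' : ∑ K ∈ I, ((Ω.filter (fun a => κ a = K ∧ C a)).card : ℝ) =
      ∑ K ∈ I', ((Ω.filter (fun a => κ a = K ∧ C a)).card : ℝ) := by
    symm
    refine Finset.sum_subset (Finset.filter_subset _ _) fun K hK hK' => ?_
    rw [hzero K hK hK']; simp
  rw [hsum, hcard, hsum', hcard']
  refine (Finset.sq_sum_div_le_sum_sq_div I' _ ?_).trans ?_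
  · intro K hK
    have := (Finset.mem_filter.mp hK).2
    exact_mod_cast this
  · refine Finset.sum_le_sum_of_subset_of_nonneg (Finset.filter_subset _ _) fun K _ _ => ?_
    positivity

/-- The blocks of `Ω` are the union of the blocks of the classes. -/
theorem sum_blocks_classes (Ω : Finset α) (κ : α → β) (cl : α → γ)
    (hb : ∀ a ∈ Ω, ∀ b ∈ Ω, κ a = κ b → cl a = cl b) (X : β → ℝ) :
    ∑ c ∈ Ω.image cl, ∑ K ∈ (Ω.filter (fun a => cl a = c)).image κ, X K =
      ∑ K ∈ Ω.image κ, X K := by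
  classical
  rw [← Finset.sum_biUnion]
  · refine Finset.sum_congr ?_ fun _ _ => rfl
    ext K
    simp only [mem_biUnion, mem_image, mem_filter]
    constructor
    · rintro ⟨c, _, a, ⟨ha, _⟩, rfl⟩
      exact ⟨a, ha, rfl⟩
    · rintro ⟨a, ha, rfl⟩
      exact ⟨cl a, ⟨a, ha, rfl⟩, a, ⟨ha, rfl⟩, rfl⟩
  · intro c _ c' _ hcc'
    rw [Function.onFun, Finset.disjoint_left]
    intro K hK hK'
    obtain ⟨a, ha, rfl⟩ := Finset.mem_image.mp hK
    obtain ⟨a', ha', he⟩ := Finset.mem_image.mp hK'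
    obtain ⟨h1, h2⟩ := Finset.mem_filter.mp ha
    obtain ⟨h1', h2'⟩ := Finset.mem_filter.mp ha'
    exact hcc' (h2.symm.trans ((hb a h1 a' h1' he.symm).trans h2'))

/-- **The outer shell of `pq_bound`.** -/
theorem pq_shell (Ω : Finset α) (κp : α → β) (κq : α → β) (cl : α → γ) (C : α → Prop)
    [DecidablePred C]
    (hbp : ∀ a ∈ Ω, ∀ b ∈ Ω, κp a = κp b → cl a = cl b)
    (hbq : ∀ a ∈ Ω, ∀ b ∈ Ω, κq a = κq b → cl a = cl b)
    (gp gq e : α → ℝ)
    (hF : ∀ c ∈ Ω.image cl,
      (1 / 4) * ∑ a ∈ Ω.filter (fun a => cl a = c ∧ C a), e a +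
        (∑ a ∈ Ω.filter (fun a => cl a = c ∧ C a), gp a) *
          (∑ a ∈ Ω.filter (fun a => cl a = c ∧ C a), gq a) /
            ((Ω.filter (fun a => cl a = c ∧ C a)).card : ℝ) ≤
      ∑ a ∈ Ω.filter (fun a => cl a = c), gp a * gq a) :
    (1 / 4) * ∑ a ∈ Ω.filter C, e a
      - (1 / 2) * ∑ K ∈ Ω.image κp,
          (∑ a ∈ Ω.filter (fun a => κp a = K ∧ C a), gp a) ^ 2 /
            ((Ω.filter (fun a => κp a = K ∧ C a)).card : ℝ)
      - (1 / 2) * ∑ K ∈ Ω.image κq,
          (∑ a ∈ Ω.filter (fun a => κq a = K ∧ C a), gq a) ^ 2 /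
            ((Ω.filter (fun a => κq a = K ∧ C a)).card : ℝ) ≤
      ∑ a ∈ Ω, gp a * gq a := by
  classical
  -- sums over the classes
  have hmap : ∀ a ∈ Ω, cl a ∈ Ω.image cl := fun a ha => Finset.mem_image_of_mem cl ha
  have hsplit : ∑ a ∈ Ω, gp a * gq a =
      ∑ c ∈ Ω.image cl, ∑ a ∈ Ω.filter (fun a => cl a = c), gp a * gq a :=
    (Finset.sum_fiberwise_of_maps_to hmap _).symm
  have hsplitE : ∑ a ∈ Ω.filter C, e a =
      ∑ c ∈ Ω.image cl, ∑ a ∈ Ω.filter (fun a => cl a = c ∧ C a), e a := by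
    rw [← Finset.sum_fiberwise_of_maps_to (s := Ω.filter C) (t := Ω.image cl) (g := cl)
      (fun a ha => hmap a (Finset.mem_filter.mp ha).1) e]
    refine Finset.sum_congr rfl fun c _ => Finset.sum_congr ?_ fun _ _ => rfl
    ext a
    simp only [mem_filter]
    tauto
  -- one class
  have hone : ∀ c ∈ Ω.image cl,
      (1 / 4) * ∑ a ∈ Ω.filter (fun a => cl a = c ∧ C a), e a
        - (1 / 2) * ∑ K ∈ (Ω.filter (fun a => cl a = c)).image κp,
          (∑ a ∈ Ω.filter (fun a => κp a = K ∧ C a), gp a) ^ 2 /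
            ((Ω.filter (fun a => κp a = K ∧ C a)).card : ℝ)
        - (1 / 2) * ∑ K ∈ (Ω.filter (fun a => cl a = c)).image κq,
          (∑ a ∈ Ω.filter (fun a => κq a = K ∧ C a), gq a) ^ 2 /
            ((Ω.filter (fun a => κq a = K ∧ C a)).card : ℝ) ≤
      ∑ a ∈ Ω.filter (fun a => cl a = c), gp a * gq a := by
    intro c hc
    have h1 := hF c hc
    have h2 := titu_class Ω κp cl C hbp gp c
    have h3 := titu_class Ω κq cl C hbq gq c
    set A := ∑ a ∈ Ω.filter (fun a => cl a = c ∧ C a), gp a with hA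
    set B := ∑ a ∈ Ω.filter (fun a => cl a = c ∧ C a), gq a with hB
    set N : ℝ := ((Ω.filter (fun a => cl a = c ∧ C a)).card : ℝ) with hN
    have hN0 : 0 ≤ N := by positivity
    have hamgm : 0 ≤ A * B / N + (1 / 2) * (A ^ 2 / N) + (1 / 2) * (B ^ 2 / N) := by
      have : A * B / N + (1 / 2) * (A ^ 2 / N) + (1 / 2) * (B ^ 2 / N) =
          (A + B) ^ 2 / (2 * N) := by
        by_cases h : N = 0
        · simp [h]
        · field_simp
          ring
      rw [this]
      positivity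
    linarith
  have hsum := Finset.sum_le_sum hone
  rw [← hsplit, Finset.sum_sub_distrib, Finset.sum_sub_distrib, ← Finset.mul_sum,
    ← Finset.mul_sum, ← Finset.mul_sum, ← hsplitE, sum_blocks_classes Ω κp cl hbp,
    sum_blocks_classes Ω κq cl hbq] at hsum
  exact hsum

end Shell

end Crest.Agent.Lib.Switch
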