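import Mathlib

/-!
# The abstract fibre lemma for `X4` (switch chain, S0453)

Pure finite sums, no graphs.  A fibre of a disjoint pair `{p, q}` consists of states `(X, Y, M)`;
in the plus-shaped case (two edges between `p` and `q`) the states are

* centre states `(X, Y, s)`, `X ∈ X₀`, `Y ∈ Y₀`, `s : Bool` (the two matchings),
* arm states `(X, Y)`, `X ∈ X₁`, `Y ∈ Y₀`,
* arm states `(X, Y)`, `X ∈ X₀`, `Y ∈ Y₁`.

`E_p` averages over the states with the same `Y`, `E_q` over the states with the same `X`.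
-/

set_option autoImplicit false

namespace Crest.Agent.Lib.Switch

open Finset

variable {α β : Type*}

/-- Cauchy-Schwarz for a double sum. -/
lemma sq_dsum_le (X : Finset α) (Y : Finset β) (φ : α → β → ℝ) :
    (∑ x ∈ X, ∑ y ∈ Y, φ x y) ^ 2 ≤ (X.card : ℝ) * Y.card * ∑ x ∈ X, ∑ y ∈ Y, φ x y ^ 2 := by
  have h := sq_sum_le_card_mul_sum_sq (s := X ×ˢ Y) (f := fun z => φ z.1 z.2)
  rw [Finset.sum_product, Finset.sum_product, Finset.card_product] at h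
  push_cast at h
  exact h

/-- The product case: `A_p, A_q` commute on a product, so the overlap is nonnegative. -/
theorem product_overlap_nonneg (X : Finset α) (Y : Finset β) (f : α → β → ℝ) :
    0 ≤ ∑ x ∈ X, ∑ y ∈ Y,
      (f x y - (∑ x' ∈ X, f x' y) / (X.card : ℝ)) * (f x y - (∑ y' ∈ Y, f x y') / (Y.card : ℝ)) := by
  classical
  rcases X.eq_empty_or_nonempty with rfl | hX
  · simp
  rcases Y.eq_empty_or_nonempty with rfl | hY
  · simp
  have hnx : (0 : ℝ) < X.card := by exact_mod_cast hX.card_pos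
  have hny : (0 : ℝ) < Y.card := by exact_mod_cast hY.card_pos
  set nx : ℝ := (X.card : ℝ) with hnxdef
  set ny : ℝ := (Y.card : ℝ) with hnydef
  set V : β → ℝ := fun y => (∑ x' ∈ X, f x' y) / nx with hV
  set U : α → ℝ := fun x => (∑ y' ∈ Y, f x y') / ny with hU
  set s : ℝ := ∑ x ∈ X, ∑ y ∈ Y, f x y with hs
  have hVsum : ∀ y, nx * V y = ∑ x ∈ X, f x y := by
    intro y; simp only [hV]; field_simp
  have hUsum : ∀ x, ny * U x = ∑ y ∈ Y, f x y := by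
    intro x; simp only [hU]; field_simp
  have hSU : ny * ∑ x ∈ X, U x = s := by
    rw [Finset.mul_sum]; exact Finset.sum_congr rfl fun x _ => hUsum x
  have hSV : nx * ∑ y ∈ Y, V y = s := by
    rw [Finset.mul_sum, hs, Finset.sum_comm]; exact Finset.sum_congr rfl fun y _ => hVsum y
  -- the two orthogonality relations
  have h1 : ∑ x ∈ X, ∑ y ∈ Y, (f x y - U x) * U x = 0 := by
    apply Finset.sum_eq_zero
    intro x _
    rw [← Finset.sum_mul, Finset.sum_sub_distrib, Finset.sum_const, nsmul_eq_mul, ← hnydef, ← hUsum x]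
    ring
  have h2 : ∑ x ∈ X, ∑ y ∈ Y, (f x y - V y) * V y = 0 := by
    rw [Finset.sum_comm]
    apply Finset.sum_eq_zero
    intro y _
    rw [← Finset.sum_mul, Finset.sum_sub_distrib, Finset.sum_const, nsmul_eq_mul, ← hnxdef, ← hVsum y]
    ring
  have h3 : ∑ x ∈ X, ∑ y ∈ Y, U x * V y = (∑ x ∈ X, U x) * ∑ y ∈ Y, V y := by
    rw [Finset.sum_mul_sum]
  have h4 : ∑ x ∈ X, ∑ y ∈ Y, (f x y - U x - V y) = -s := by
    have : ∑ x ∈ X, ∑ y ∈ Y, (f x y - U x - V y)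
        = s - ny * ∑ x ∈ X, U x - nx * ∑ y ∈ Y, V y := by
      simp only [Finset.sum_sub_distrib, Finset.sum_const, nsmul_eq_mul, ← hnydef, ← hnxdef,
        Finset.mul_sum, hs]
    rw [this, hSU, hSV]; ring
  have h5 := sq_dsum_le X Y (fun x y => f x y - U x - V y)
  rw [h4] at h5
  have key : ∑ x ∈ X, ∑ y ∈ Y, (f x y - V y) * (f x y - U x)
      = ∑ x ∈ X, ∑ y ∈ Y, (f x y - U x - V y) ^ 2 + ∑ x ∈ X, ∑ y ∈ Y, (f x y - U x) * U x
        + ∑ x ∈ X, ∑ y ∈ Y, (f x y - V y) * V y - ∑ x ∈ X, ∑ y ∈ Y, U x * V y := by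
    simp only [← Finset.sum_add_distrib, ← Finset.sum_sub_distrib]
    refine Finset.sum_congr rfl fun x _ => Finset.sum_congr rfl fun y _ => ?_
    ring
  rw [key, h1, h2, h3]
  set N : ℝ := ∑ x ∈ X, ∑ y ∈ Y, (f x y - U x - V y) ^ 2 with hN
  have hprod : 0 < nx * ny := by positivity
  have e : (∑ x ∈ X, U x) * ∑ y ∈ Y, V y = s ^ 2 / (nx * ny) := by
    have e1 : ∑ x ∈ X, U x = s / ny := by field_simp; linarith
    have e2 : ∑ y ∈ Y, V y = s / nx := by field_simp; linarith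
    rw [e1, e2]; field_simp
  rw [e]
  have h6 : s ^ 2 / (nx * ny) ≤ N := by
    rw [div_le_iff₀ hprod]
    have : (-s) ^ 2 = s ^ 2 := by ring
    rw [this] at h5
    linarith
  linarith

/-- The core inequality with the centre averaged (`c` is the average of the two matchings). -/
theorem plus_core (X₀ X₁ : Finset α) (Y₀ Y₁ : Finset β) (c fu fv : α → β → ℝ)
    (hX : X₀.Nonempty) (hY : Y₀.Nonempty)
    (B B' : β → ℝ) (A A' : α → ℝ)
    (hB : ∀ y, B y = (2 * ∑ x ∈ X₀, c x y + ∑ x ∈ X₁, fu x y) / (2 * (X₀.card : ℝ) + X₁.card))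
    (hB' : ∀ y, B' y = (∑ x ∈ X₀, fv x y) / (X₀.card : ℝ))
    (hA : ∀ x, A x = (2 * ∑ y ∈ Y₀, c x y + ∑ y ∈ Y₁, fv x y) / (2 * (Y₀.card : ℝ) + Y₁.card))
    (hA' : ∀ x, A' x = (∑ y ∈ Y₀, fu x y) / (Y₀.card : ℝ)) :
    -(∑ y ∈ Y₀, 2 * (∑ x ∈ X₀, (c x y - B y)) ^ 2 / (X₀.card : ℝ))
      - (∑ x ∈ X₀, 2 * (∑ y ∈ Y₀, (c x y - A x)) ^ 2 / (Y₀.card : ℝ))
    ≤ 2 * (2 * ∑ x ∈ X₀, ∑ y ∈ Y₀, (c x y - B y) * (c x y - A x)
        + ∑ x ∈ X₁, ∑ y ∈ Y₀, (fu x y - B y) * (fu x y - A' x)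
        + ∑ x ∈ X₀, ∑ y ∈ Y₁, (fv x y - B' y) * (fv x y - A x)) := by
  classical
  have hnx : (0 : ℝ) < X₀.card := by exact_mod_cast hX.card_pos
  have hny : (0 : ℝ) < Y₀.card := by exact_mod_cast hY.card_pos
  have hmx : (0 : ℝ) ≤ X₁.card := by positivity
  have hmy : (0 : ℝ) ≤ Y₁.card := by positivity
  set nx : ℝ := (X₀.card : ℝ) with hnxdef
  set ny : ℝ := (Y₀.card : ℝ) with hnydef
  set mx : ℝ := (X₁.card : ℝ) with hmxdef
  set my : ℝ := (Y₁.card : ℝ) with hmydef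
  set Sc : ℝ := ∑ x ∈ X₀, ∑ y ∈ Y₀, c x y with hSc
  set Sx : ℝ := ∑ x ∈ X₀, ∑ y ∈ Y₁, fv x y with hSx
  set Sy : ℝ := ∑ x ∈ X₁, ∑ y ∈ Y₀, fu x y with hSy
  set SA : ℝ := ∑ x ∈ X₀, A x with hSA
  set SB : ℝ := ∑ y ∈ Y₀, B y with hSB
  -- defining relations
  have hAe : ∀ x, (2 * ny + my) * A x = 2 * ∑ y ∈ Y₀, c x y + ∑ y ∈ Y₁, fv x y := by
    intro x; rw [hA x]; field_simp
  have hBe : ∀ y, (2 * nx + mx) * B y = 2 * ∑ x ∈ X₀, c x y + ∑ x ∈ X₁, fu x y := by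
    intro y; rw [hB y]; field_simp
  have hA'e : ∀ x, ny * A' x = ∑ y ∈ Y₀, fu x y := by
    intro x; rw [hA' x]; field_simp
  have hB'e : ∀ y, nx * B' y = ∑ x ∈ X₀, fv x y := by
    intro y; rw [hB' y]; field_simp
  have R1 : (2 * ny + my) * SA = 2 * Sc + Sx := by
    rw [hSA, Finset.mul_sum, hSc, hSx, Finset.mul_sum, ← Finset.sum_add_distrib]
    exact Finset.sum_congr rfl fun x _ => hAe x
  have R2 : (2 * nx + mx) * SB = 2 * Sc + Sy := by
    have e1 : Sc = ∑ y ∈ Y₀, ∑ x ∈ X₀, c x y := by rw [hSc, Finset.sum_comm]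
    have e2 : Sy = ∑ y ∈ Y₀, ∑ x ∈ X₁, fu x y := by rw [hSy, Finset.sum_comm]
    rw [hSB, Finset.mul_sum, e1, e2, Finset.mul_sum, ← Finset.sum_add_distrib]
    exact Finset.sum_congr rfl fun y _ => hBe y
  have hSA' : ny * ∑ x ∈ X₁, A' x = Sy := by
    rw [Finset.mul_sum, hSy]; exact Finset.sum_congr rfl fun x _ => hA'e x
  have hSB' : nx * ∑ y ∈ Y₁, B' y = Sx := by
    rw [Finset.mul_sum, hSx, Finset.sum_comm]; exact Finset.sum_congr rfl fun y _ => hB'e y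
  -- orthogonality relations
  have o1 : 2 * (∑ x ∈ X₀, ∑ y ∈ Y₀, (c x y - A x) * A x)
      + ∑ x ∈ X₀, ∑ y ∈ Y₁, (fv x y - A x) * A x = 0 := by
    rw [Finset.mul_sum, ← Finset.sum_add_distrib]
    apply Finset.sum_eq_zero
    intro x _
    have e1 : ∑ y ∈ Y₀, (c x y - A x) * A x = (∑ y ∈ Y₀, c x y - ny * A x) * A x := by
      rw [← Finset.sum_mul, Finset.sum_sub_distrib, Finset.sum_const, nsmul_eq_mul]
    have e2 : ∑ y ∈ Y₁, (fv x y - A x) * A x = (∑ y ∈ Y₁, fv x y - my * A x) * A x := by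
      rw [← Finset.sum_mul, Finset.sum_sub_distrib, Finset.sum_const, nsmul_eq_mul]
    rw [e1, e2]
    have := hAe x
    linear_combination (-A x) * this
  have o2 : ∑ x ∈ X₁, ∑ y ∈ Y₀, (fu x y - A' x) * A' x = 0 := by
    apply Finset.sum_eq_zero
    intro x _
    rw [← Finset.sum_mul, Finset.sum_sub_distrib, Finset.sum_const, nsmul_eq_mul, ← hnydef, ← hA'e x]
    ring
  have o3 : 2 * (∑ x ∈ X₀, ∑ y ∈ Y₀, (c x y - B y) * B y)
      + ∑ x ∈ X₁, ∑ y ∈ Y₀, (fu x y - B y) * B y = 0 := by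
    rw [Finset.sum_comm (s := X₀), Finset.sum_comm (s := X₁), Finset.mul_sum,
      ← Finset.sum_add_distrib]
    apply Finset.sum_eq_zero
    intro y _
    have e1 : ∑ x ∈ X₀, (c x y - B y) * B y = (∑ x ∈ X₀, c x y - nx * B y) * B y := by
      rw [← Finset.sum_mul, Finset.sum_sub_distrib, Finset.sum_const, nsmul_eq_mul]
    have e2 : ∑ x ∈ X₁, (fu x y - B y) * B y = (∑ x ∈ X₁, fu x y - mx * B y) * B y := by
      rw [← Finset.sum_mul, Finset.sum_sub_distrib, Finset.sum_const, nsmul_eq_mul]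
    rw [e1, e2]
    have := hBe y
    linear_combination (-B y) * this
  have o4 : ∑ x ∈ X₀, ∑ y ∈ Y₁, (fv x y - B' y) * B' y = 0 := by
    rw [Finset.sum_comm]
    apply Finset.sum_eq_zero
    intro y _
    rw [← Finset.sum_mul, Finset.sum_sub_distrib, Finset.sum_const, nsmul_eq_mul, ← hnxdef, ← hB'e y]
    ring
  -- the residual squares
  set N1 : ℝ := ∑ x ∈ X₀, ∑ y ∈ Y₀, (c x y - A x - B y) ^ 2 with hN1
  set N2 : ℝ := ∑ x ∈ X₁, ∑ y ∈ Y₀, (fu x y - A' x - B y) ^ 2 with hN2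
  set N3 : ℝ := ∑ x ∈ X₀, ∑ y ∈ Y₁, (fv x y - A x - B' y) ^ 2 with hN3
  have hN2nn : 0 ≤ N2 := by
    apply Finset.sum_nonneg; intro x _; apply Finset.sum_nonneg; intro y _; positivity
  have hN3nn : 0 ≤ N3 := by
    apply Finset.sum_nonneg; intro x _; apply Finset.sum_nonneg; intro y _; positivity
  have key1 : ∑ x ∈ X₀, ∑ y ∈ Y₀, (c x y - B y) * (c x y - A x)
      = N1 + ∑ x ∈ X₀, ∑ y ∈ Y₀, (c x y - A x) * A x + ∑ x ∈ X₀, ∑ y ∈ Y₀, (c x y - B y) * B y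
        - ∑ x ∈ X₀, ∑ y ∈ Y₀, A x * B y := by
    simp only [hN1, ← Finset.sum_add_distrib, ← Finset.sum_sub_distrib]
    refine Finset.sum_congr rfl fun x _ => Finset.sum_congr rfl fun y _ => ?_
    ring
  have key2 : ∑ x ∈ X₁, ∑ y ∈ Y₀, (fu x y - B y) * (fu x y - A' x)
      = N2 + ∑ x ∈ X₁, ∑ y ∈ Y₀, (fu x y - A' x) * A' x + ∑ x ∈ X₁, ∑ y ∈ Y₀, (fu x y - B y) * B y
        - ∑ x ∈ X₁, ∑ y ∈ Y₀, A' x * B y := by
    simp only [hN2, ← Finset.sum_add_distrib, ← Finset.sum_sub_distrib]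
    refine Finset.sum_congr rfl fun x _ => Finset.sum_congr rfl fun y _ => ?_
    ring
  have key3 : ∑ x ∈ X₀, ∑ y ∈ Y₁, (fv x y - B' y) * (fv x y - A x)
      = N3 + ∑ x ∈ X₀, ∑ y ∈ Y₁, (fv x y - A x) * A x + ∑ x ∈ X₀, ∑ y ∈ Y₁, (fv x y - B' y) * B' y
        - ∑ x ∈ X₀, ∑ y ∈ Y₁, A x * B' y := by
    simp only [hN3, ← Finset.sum_add_distrib, ← Finset.sum_sub_distrib]
    refine Finset.sum_congr rfl fun x _ => Finset.sum_congr rfl fun y _ => ?_
    ring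
  have ab1 : ∑ x ∈ X₀, ∑ y ∈ Y₀, A x * B y = SA * SB := by rw [hSA, hSB, Finset.sum_mul_sum]
  have ab2 : ny * ∑ x ∈ X₁, ∑ y ∈ Y₀, A' x * B y = Sy * SB := by
    rw [← Finset.sum_mul_sum, ← hSB, ← mul_assoc, hSA']
  have ab3 : nx * ∑ x ∈ X₀, ∑ y ∈ Y₁, A x * B' y = SA * Sx := by
    rw [← Finset.sum_mul_sum, ← hSA, ← hSB']
    ring
  -- Jensen on the rectangles
  have J1 : (Sc - ny * SA - nx * SB) ^ 2 ≤ nx * ny * N1 := by
    have h := sq_dsum_le X₀ Y₀ (fun x y => c x y - A x - B y)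
    have e : ∑ x ∈ X₀, ∑ y ∈ Y₀, (c x y - A x - B y) = Sc - ny * SA - nx * SB := by
      simp only [Finset.sum_sub_distrib, Finset.sum_const, nsmul_eq_mul, ← hnydef, ← hnxdef,
        Finset.mul_sum, hSc, hSA, hSB]
    rw [e] at h
    exact h
  have J2 : (mx * SB) ^ 2 ≤ mx * ny * N2 := by
    have h := sq_dsum_le X₁ Y₀ (fun x y => fu x y - A' x - B y)
    have e : ∑ x ∈ X₁, ∑ y ∈ Y₀, (fu x y - A' x - B y) = -(mx * SB) := by
      have e1 : ∑ x ∈ X₁, ∑ y ∈ Y₀, (fu x y - A' x - B y)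
          = Sy - ny * ∑ x ∈ X₁, A' x - mx * SB := by
        simp only [Finset.sum_sub_distrib, Finset.sum_const, nsmul_eq_mul, ← hnydef, ← hmxdef,
          Finset.mul_sum, hSy, hSB]
      rw [e1, hSA']; ring
    rw [e] at h
    have h' : (-(mx * SB)) ^ 2 = (mx * SB) ^ 2 := by ring
    rw [h'] at h
    exact h
  have J3 : (my * SA) ^ 2 ≤ nx * my * N3 := by
    have h := sq_dsum_le X₀ Y₁ (fun x y => fv x y - A x - B' y)
    have e : ∑ x ∈ X₀, ∑ y ∈ Y₁, (fv x y - A x - B' y) = -(my * SA) := by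
      have e1 : ∑ x ∈ X₀, ∑ y ∈ Y₁, (fv x y - A x - B' y)
          = Sx - my * SA - nx * ∑ y ∈ Y₁, B' y := by
        simp only [Finset.sum_sub_distrib, Finset.sum_const, nsmul_eq_mul, ← hmydef, ← hnxdef,
          Finset.mul_sum, hSx, hSA]
      rw [e1, hSB']; ring
    rw [e] at h
    have h' : (-(my * SA)) ^ 2 = (my * SA) ^ 2 := by ring
    rw [h'] at h
    exact h
  -- Jensen for the T-terms
  set Tp : ℝ := ∑ y ∈ Y₀, 2 * (∑ x ∈ X₀, (c x y - B y)) ^ 2 / nx with hTp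
  set Tq : ℝ := ∑ x ∈ X₀, 2 * (∑ y ∈ Y₀, (c x y - A x)) ^ 2 / ny with hTq
  have T1 : (Sc - nx * SB) ^ 2 ≤ ny * (nx / 2 * Tp) := by
    have h := sq_sum_le_card_mul_sum_sq (s := Y₀) (f := fun y => ∑ x ∈ X₀, (c x y - B y))
    have e : ∑ y ∈ Y₀, ∑ x ∈ X₀, (c x y - B y) = Sc - nx * SB := by
      rw [Finset.sum_comm]
      simp only [Finset.sum_sub_distrib, Finset.sum_const, nsmul_eq_mul, ← hnxdef,
        Finset.mul_sum, hSc, hSB]
    rw [e] at h
    have e2 : nx / 2 * Tp = ∑ y ∈ Y₀, (∑ x ∈ X₀, (c x y - B y)) ^ 2 := by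
      rw [hTp, Finset.mul_sum]
      refine Finset.sum_congr rfl fun y _ => ?_
      field_simp
    rw [e2]
    exact h
  have T2 : (Sc - ny * SA) ^ 2 ≤ nx * (ny / 2 * Tq) := by
    have h := sq_sum_le_card_mul_sum_sq (s := X₀) (f := fun x => ∑ y ∈ Y₀, (c x y - A x))
    have e : ∑ x ∈ X₀, ∑ y ∈ Y₀, (c x y - A x) = Sc - ny * SA := by
      simp only [Finset.sum_sub_distrib, Finset.sum_const, nsmul_eq_mul, ← hnydef,
        Finset.mul_sum, hSc, hSA]
    rw [e] at h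
    have e2 : ny / 2 * Tq = ∑ x ∈ X₀, (∑ y ∈ Y₀, (c x y - A x)) ^ 2 := by
      rw [hTq, Finset.mul_sum]
      refine Finset.sum_congr rfl fun x _ => ?_
      field_simp
    rw [e2]
    exact h
  -- normalised quantities
  obtain ⟨t, ht⟩ : ∃ t, Sc = nx * ny * t := ⟨Sc / (nx * ny), by field_simp⟩
  obtain ⟨mp, hmp⟩ : ∃ mp, SB = ny * mp := ⟨SB / ny, by field_simp⟩
  obtain ⟨mq, hmq⟩ : ∃ mq, SA = nx * mq := ⟨SA / nx, by field_simp⟩
  have AB2 : ∑ x ∈ X₁, ∑ y ∈ Y₀, A' x * B y = Sy * mp := by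
    have : ny * ∑ x ∈ X₁, ∑ y ∈ Y₀, A' x * B y = ny * (Sy * mp) := by rw [ab2, hmp]; ring
    exact mul_left_cancel₀ hny.ne' this
  have AB3 : ∑ x ∈ X₀, ∑ y ∈ Y₁, A x * B' y = mq * Sx := by
    have : nx * ∑ x ∈ X₀, ∑ y ∈ Y₁, A x * B' y = nx * (mq * Sx) := by rw [ab3, hmq]; ring
    exact mul_left_cancel₀ hnx.ne' this
  have hpos : 0 < nx * ny := mul_pos hnx hny
  -- consequences of Jensen
  have J1' : nx * ny * (t - mq - mp) ^ 2 ≤ N1 := by
    have e : Sc - ny * SA - nx * SB = nx * ny * (t - mq - mp) := by rw [ht, hmp, hmq]; ring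
    rw [e] at J1
    have : (nx * ny) * (nx * ny * (t - mq - mp) ^ 2) ≤ (nx * ny) * N1 := by nlinarith
    exact le_of_mul_le_mul_left this hpos
  have J2' : mx * ny * mp ^ 2 ≤ N2 := by
    rcases hmx.eq_or_lt with h0 | h0
    · rw [← h0]; simpa using hN2nn
    · rw [hmp] at J2
      have h1 : 0 < mx * ny := mul_pos h0 hny
      have : (mx * ny) * (mx * ny * mp ^ 2) ≤ (mx * ny) * N2 := by nlinarith
      exact le_of_mul_le_mul_left this h1
  have J3' : my * nx * mq ^ 2 ≤ N3 := by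
    rcases hmy.eq_or_lt with h0 | h0
    · rw [← h0]; simpa using hN3nn
    · rw [hmq] at J3
      have h1 : 0 < nx * my := mul_pos hnx h0
      have : (nx * my) * (my * nx * mq ^ 2) ≤ (nx * my) * N3 := by nlinarith
      exact le_of_mul_le_mul_left this h1
  have T1' : 2 * (nx * ny) * (t - mp) ^ 2 ≤ Tp := by
    have e : Sc - nx * SB = nx * ny * (t - mp) := by rw [ht, hmp]; ring
    rw [e] at T1
    have : (nx * ny) * (2 * (nx * ny) * (t - mp) ^ 2) ≤ (nx * ny) * Tp := by nlinarith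
    exact le_of_mul_le_mul_left this hpos
  have T2' : 2 * (nx * ny) * (t - mq) ^ 2 ≤ Tq := by
    have e : Sc - ny * SA = nx * ny * (t - mq) := by rw [ht, hmq]; ring
    rw [e] at T2
    have : (nx * ny) * (2 * (nx * ny) * (t - mq) ^ 2) ≤ (nx * ny) * Tq := by nlinarith
    exact le_of_mul_le_mul_left this hpos
  -- assemble
  rw [key1, key2, key3, ab1, AB2, AB3]
  have o2' := o2
  have o4' := o4
  set P1 := ∑ x ∈ X₀, ∑ y ∈ Y₀, (c x y - A x) * A x with hP1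
  set P2 := ∑ x ∈ X₀, ∑ y ∈ Y₀, (c x y - B y) * B y with hP2
  set P3 := ∑ x ∈ X₀, ∑ y ∈ Y₁, (fv x y - A x) * A x with hP3
  set P4 := ∑ x ∈ X₁, ∑ y ∈ Y₀, (fu x y - B y) * B y with hP4
  rw [o2, o4]
  have hSx' : Sx = (2 * ny + my) * (nx * mq) - 2 * (nx * ny * t) := by
    rw [← hmq, R1, ht]; ring
  have hSy' : Sy = (2 * nx + mx) * (ny * mp) - 2 * (nx * ny * t) := by
    rw [← hmp, R2, ht]; ring
  rw [hSx', hSy', hmq, hmp]
  have hP : 2 * P1 + P3 = 0 := o1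
  have hQ : 2 * P2 + P4 = 0 := o3
  have hsq : 0 ≤ nx * ny * (2 * t - mp - mq) ^ 2 := by positivity
  nlinarith [J1', J2', J3', T1', T2', hsq]

/-- The plus-fibre inequality, for the original function with the two centre values. -/
theorem plus_fibre (X₀ X₁ : Finset α) (Y₀ Y₁ : Finset β) (fc : α → β → Bool → ℝ) (fu fv : α → β → ℝ)
    (B B' : β → ℝ) (A A' : α → ℝ)
    (hB : ∀ y, B y = (∑ x ∈ X₀, (fc x y true + fc x y false) + ∑ x ∈ X₁, fu x y)
      / (2 * (X₀.card : ℝ) + X₁.card))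
    (hB' : ∀ y, B' y = (∑ x ∈ X₀, fv x y) / (X₀.card : ℝ))
    (hA : ∀ x, A x = (∑ y ∈ Y₀, (fc x y true + fc x y false) + ∑ y ∈ Y₁, fv x y)
      / (2 * (Y₀.card : ℝ) + Y₁.card))
    (hA' : ∀ x, A' x = (∑ y ∈ Y₀, fu x y) / (Y₀.card : ℝ)) :
    ∑ x ∈ X₀, ∑ y ∈ Y₀, (fc x y true - fc x y false) ^ 2
      - ∑ y ∈ Y₀, (∑ x ∈ X₀, ((fc x y true - B y) + (fc x y false - B y))) ^ 2
          / (2 * (X₀.card : ℝ))
      - ∑ x ∈ X₀, (∑ y ∈ Y₀, ((fc x y true - A x) + (fc x y false - A x))) ^ 2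
          / (2 * (Y₀.card : ℝ))
    ≤ 2 * (∑ x ∈ X₀, ∑ y ∈ Y₀, ((fc x y true - B y) * (fc x y true - A x)
            + (fc x y false - B y) * (fc x y false - A x))
        + ∑ x ∈ X₁, ∑ y ∈ Y₀, (fu x y - B y) * (fu x y - A' x)
        + ∑ x ∈ X₀, ∑ y ∈ Y₁, (fv x y - B' y) * (fv x y - A x)) := by
  classical
  rcases X₀.eq_empty_or_nonempty with rfl | hX
  · -- no centre: a product `X₁ × Y₀`
    have h := product_overlap_nonneg X₁ Y₀ fu
    have hB2 : ∀ y, B y = (∑ x ∈ X₁, fu x y) / (X₁.card : ℝ) := by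
      intro y; rw [hB y]; simp
    have e : ∑ x ∈ X₁, ∑ y ∈ Y₀, (fu x y - B y) * (fu x y - A' x)
        = ∑ x ∈ X₁, ∑ y ∈ Y₀,
          (fu x y - (∑ x' ∈ X₁, fu x' y) / (X₁.card : ℝ))
            * (fu x y - (∑ y' ∈ Y₀, fu x y') / (Y₀.card : ℝ)) := by
      refine Finset.sum_congr rfl fun x _ => Finset.sum_congr rfl fun y _ => ?_
      rw [hB2 y, hA' x]
    simp only [Finset.sum_empty, zero_add, add_zero]
    rw [e]
    simp
    try linarith
  rcases Y₀.eq_empty_or_nonempty with rfl | hY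
  · -- no centre: a product `X₀ × Y₁`
    have h := product_overlap_nonneg X₀ Y₁ fv
    have hA2 : ∀ x, A x = (∑ y ∈ Y₁, fv x y) / (Y₁.card : ℝ) := by
      intro x; rw [hA x]; simp
    have e : ∑ x ∈ X₀, ∑ y ∈ Y₁, (fv x y - B' y) * (fv x y - A x)
        = ∑ x ∈ X₀, ∑ y ∈ Y₁,
          (fv x y - (∑ x' ∈ X₀, fv x' y) / (X₀.card : ℝ))
            * (fv x y - (∑ y' ∈ Y₁, fv x y') / (Y₁.card : ℝ)) := by
      refine Finset.sum_congr rfl fun x _ => Finset.sum_congr rfl fun y _ => ?_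
      rw [hB' y, hA2 x]
    simp only [Finset.sum_empty, zero_add, add_zero]
    rw [e]
    simp
    try linarith
  -- the main case
  have hnx : (0 : ℝ) < X₀.card := by exact_mod_cast hX.card_pos
  have hny : (0 : ℝ) < Y₀.card := by exact_mod_cast hY.card_pos
  have hcore := plus_core X₀ X₁ Y₀ Y₁ (fun x y => (fc x y true + fc x y false) / 2) fu fv hX hY
    B B' A A'
    (by
      intro y
      rw [hB y]
      congr 1
      rw [Finset.mul_sum]
      congr 1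
      refine Finset.sum_congr rfl fun x _ => ?_
      ring)
    hB'
    (by
      intro x
      rw [hA x]
      congr 1
      rw [Finset.mul_sum]
      congr 1
      refine Finset.sum_congr rfl fun y _ => ?_
      ring)
    hA'
  have e1 : ∑ x ∈ X₀, ∑ y ∈ Y₀, ((fc x y true - B y) * (fc x y true - A x)
            + (fc x y false - B y) * (fc x y false - A x))
      = 2 * ∑ x ∈ X₀, ∑ y ∈ Y₀, ((fc x y true + fc x y false) / 2 - B y)
            * ((fc x y true + fc x y false) / 2 - A x)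
        + (1 / 2) * ∑ x ∈ X₀, ∑ y ∈ Y₀, (fc x y true - fc x y false) ^ 2 := by
    rw [Finset.mul_sum, Finset.mul_sum, ← Finset.sum_add_distrib]
    refine Finset.sum_congr rfl fun x _ => ?_
    rw [Finset.mul_sum, Finset.mul_sum, ← Finset.sum_add_distrib]
    refine Finset.sum_congr rfl fun y _ => ?_
    ring
  have e2 : ∑ y ∈ Y₀, (∑ x ∈ X₀, ((fc x y true - B y) + (fc x y false - B y))) ^ 2
          / (2 * (X₀.card : ℝ))
      = ∑ y ∈ Y₀, 2 * (∑ x ∈ X₀, ((fc x y true + fc x y false) / 2 - B y)) ^ 2 / (X₀.card : ℝ) := by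
    refine Finset.sum_congr rfl fun y _ => ?_
    have : ∑ x ∈ X₀, ((fc x y true - B y) + (fc x y false - B y))
        = 2 * ∑ x ∈ X₀, ((fc x y true + fc x y false) / 2 - B y) := by
      rw [Finset.mul_sum]
      refine Finset.sum_congr rfl fun x _ => ?_
      ring
    rw [this]
    field_simp
    try ring
  have e3 : ∑ x ∈ X₀, (∑ y ∈ Y₀, ((fc x y true - A x) + (fc x y false - A x))) ^ 2
          / (2 * (Y₀.card : ℝ))
      = ∑ x ∈ X₀, 2 * (∑ y ∈ Y₀, ((fc x y true + fc x y false) / 2 - A x)) ^ 2 / (Y₀.card : ℝ) := by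
    refine Finset.sum_congr rfl fun x _ => ?_
    have : ∑ y ∈ Y₀, ((fc x y true - A x) + (fc x y false - A x))
        = 2 * ∑ y ∈ Y₀, ((fc x y true + fc x y false) / 2 - A x) := by
      rw [Finset.mul_sum]
      refine Finset.sum_congr rfl fun y _ => ?_
      ring
    rw [this]
    field_simp
    try ring
  rw [e1, e2, e3]
  linarith

end Crest.Agent.Lib.Switch
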