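/-
S0453 library, T3 (helper11): the three-row table lemma `table_gram` in the notation of the
blueprint, deduced from `Table3.lean`.
-/
import Crest.Agent.Lib.Switch.Defs
import Crest.Agent.Lib.Switch.Table3

set_option autoImplicit false

namespace Crest.Agent.Lib.Switch

open Finset

section Table
variable {α : Type*} [Fintype α] [DecidableEq α]

/-- Labelings of the columns `α` by the three rows: a column with `σ w = 1` has its single `1`
in row `ℓ w`, a column with `σ w = -1` has its single `0` in row `ℓ w`. The row sums are prescribed: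
`#{σ=1, ℓ=r} - #{σ=-1, ℓ=r} = δ r`. -/
def tableSet (σ : α → ℤ) (δ : Fin 3 → ℤ) : Finset (α → Fin 3) :=
  univ.filter fun ℓ => ∀ r, ∑ w, (if ℓ w = r then σ w else 0) = δ r

/-- The content of row `r` of `ℓ`. -/
def rowKey (r : Fin 3) (ℓ : α → Fin 3) : Finset α := univ.filter fun w => ℓ w = r

open Crest.Agent.Switch in
private lemma sum_sigma (σ : α → ℤ) (hσ : ∀ w, σ w = 1 ∨ σ w = -1) (ℓ : α → Fin 3) (r : Fin 3) :
    ∑ w, (if ℓ w = r then σ w else 0) =
      (Table3.al (fun w => decide (σ w = 1)) ℓ r : ℤ) - Table3.be (fun w => decide (σ w = 1)) ℓ r := by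
  simp only [Table3.al, Table3.be, Finset.card_filter]
  push_cast
  rw [← Finset.sum_sub_distrib]
  refine Finset.sum_congr rfl fun w _ => ?_
  rcases hσ w with h | h <;> by_cases hl : ℓ w = r <;> simp [h, hl]

open Crest.Agent.Switch in
/-- `τ₃ ≤ 2`: on mean-zero functions, `Q = ∑_r E[·| row r]` has top eigenvalue `≤ 2`. -/
theorem table_gram (σ : α → ℤ) (hσ : ∀ w, σ w = 1 ∨ σ w = -1) (δ : Fin 3 → ℤ)
    (h : (α → Fin 3) → ℝ) (h0 : ∑ ℓ ∈ tableSet σ δ, h ℓ = 0) :
    ∑ r : Fin 3, ∑ ℓ ∈ tableSet σ δ, avg (tableSet σ δ) (rowKey r) h ℓ ^ 2 ≤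
      2 * ∑ ℓ ∈ tableSet σ δ, h ℓ ^ 2 := by
  classical
  set ty : α → Bool := fun w => decide (σ w = 1) with hty
  have hmem : ∀ ℓ, ℓ ∈ tableSet σ δ ↔ Table3.IsState ty δ ℓ := by
    intro ℓ
    simp only [tableSet, Finset.mem_filter, Finset.mem_univ, true_and, Table3.IsState]
    refine forall_congr' fun r => ?_
    rw [sum_sigma σ hσ]
  have hsumT : ∀ G : (α → Fin 3) → ℝ, ∑ ℓ ∈ tableSet σ δ, G ℓ =
      ∑ x : Table3.St ty δ, G x.1 := fun G =>
    Finset.sum_subtype _ hmem G
  set h' : Table3.St ty δ → ℝ := fun x => h x.1 with hh'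
  have havg : ∀ (r : Fin 3) (x : Table3.St ty δ),
      avg (tableSet σ δ) (rowKey r) h x.1 = Table3.avg (Table3.row r) h' x := by
    intro r x
    have hset : (tableSet σ δ).filter (fun b => rowKey r b = rowKey r x.1) =
        (Table3.cls (Table3.row r) x).map (Function.Embedding.subtype _) := by
      ext ℓ
      simp only [Finset.mem_filter, Finset.mem_map, Function.Embedding.subtype_apply]
      constructor
      · rintro ⟨h1, h2⟩
        exact ⟨⟨ℓ, (hmem ℓ).1 h1⟩, Finset.mem_filter.2 ⟨Finset.mem_univ _, h2⟩, rfl⟩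
      · rintro ⟨y, hy, rfl⟩
        exact ⟨(hmem _).2 y.2, (Finset.mem_filter.1 hy).2⟩
    rw [avg, Table3.avg, hset, Finset.sum_map, Finset.card_map]
    rfl
  have hmean : ∑ x : Table3.St ty δ, h' x = 0 := by
    rw [← h0, hsumT]
  have key := Table3.form_le_of_eigen (Table3.Qlin Table3.row) (Table3.Q_symm Table3.row) 2 h'
    (fun τ v _ hv hτ => by
      have hc : ∀ x y, v x = v y := Table3.eigen_const hτ (f := v)
        (fun x => by
          have h1 := congrFun hv x
          simp only [Pi.smul_apply, smul_eq_mul] at h1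
          exact h1)
      by_cases hS : Nonempty (Table3.St ty δ)
      · obtain ⟨x0⟩ := hS
        have : ∀ x, v x * h' x = v x0 * h' x := fun x => by rw [hc x x0]
        rw [Finset.sum_congr rfl fun x _ => this x, ← Finset.mul_sum, hmean, mul_zero]
      · simp only [not_nonempty_iff] at hS
        simp)
  rw [hsumT fun ℓ => h ℓ ^ 2]
  calc ∑ r : Fin 3, ∑ ℓ ∈ tableSet σ δ, avg (tableSet σ δ) (rowKey r) h ℓ ^ 2
      = ∑ r : Fin 3, ∑ x : Table3.St ty δ, Table3.avg (Table3.row r) h' x * h' x := by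
        refine Finset.sum_congr rfl fun r _ => ?_
        rw [hsumT fun ℓ => avg (tableSet σ δ) (rowKey r) h ℓ ^ 2, ← Table3.avg_sq]
        refine Finset.sum_congr rfl fun x _ => ?_
        rw [havg, sq]
    _ = ∑ x, Table3.Qlin Table3.row h' x * h' x := by
        rw [Finset.sum_comm]
        refine Finset.sum_congr rfl fun x _ => ?_
        change _ = (∑ r, Table3.avg (Table3.row r) h' x) * h' x
        rw [Finset.sum_mul]
    _ ≤ _ := key

end Table

end Crest.Agent.Lib.Switch
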