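/-
S0453 library: definitions of the three-row tables (from the blueprint S0453_Abs), split off so that
T3 (Table.lean), T3a, T3b and T9 can share them (helper25).
-/
import Crest.Agent.Lib.Switch.Avg

set_option autoImplicit false

namespace Crest.Agent.Lib.Switch

open Finset

section Table
variable {α : Type*} [Fintype α] [DecidableEq α]

/-- Labelings of the columns `α` by the three rows: a column with `σ w = 1` has its single `1`
in row `ℓ w`, a column with `σ w = -1` has its single `0` in row `ℓ w`. The row sums are prescribed:
`#{σ=1, ℓ=r} - #{σ=-1, ℓ=r} = δ r`. -/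
def tableSet (σ : α → ℤ) (δ : Fin 3 → ℤ) : Finset (α → Fin 3) :=
  univ.filter fun ℓ => ∀ r, ∑ w, (if ℓ w = r then σ w else 0) = δ r

/-- The content of row `r` of `ℓ`. -/
def rowKey (r : Fin 3) (ℓ : α → Fin 3) : Finset α := univ.filter fun w => ℓ w = r

end Table

end Crest.Agent.Lib.Switch
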