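/-
S0453 T3 support (helper19): number of labelings with prescribed fibre sizes.
-/
import Crest.Agent.Lib.Switch.TableDefs

set_option autoImplicit false

namespace Crest.Agent.Lib.Switch

open Finset

section
set_option linter.unusedSectionVars false
variable {α : Type*} [Fintype α] [DecidableEq α]

def cntP (σ : α → ℤ) (r : Fin 3) (ℓ : α → Fin 3) : ℕ :=
  (univ.filter fun w => σ w = 1 ∧ ℓ w = r).card

def cntN (σ : α → ℤ) (r : Fin 3) (ℓ : α → Fin 3) : ℕ :=
  (univ.filter fun w => σ w = -1 ∧ ℓ w = r).card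

/-- Two nested choices inside `P`. -/
def sideSet (P : Finset α) (a0 a1 : ℕ) : Finset (Σ _ : Finset α, Finset α) :=
  (P.powersetCard a0).sigma fun S0 => (P \ S0).powersetCard a1

theorem card_sideSet (P : Finset α) (a0 a1 a2 : ℕ) (h : a0 + a1 + a2 = P.card) :
    (sideSet P a0 a1).card * (a0.factorial * a1.factorial * a2.factorial) = P.card.factorial := by
  unfold sideSet
  rw [card_sigma]
  have h1 : ∀ S0 ∈ P.powersetCard a0, ((P \ S0).powersetCard a1).card = (P.card - a0).choose a1 := by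
    intro S0 hS0
    obtain ⟨hsub, hc⟩ := mem_powersetCard.mp hS0
    rw [card_powersetCard, card_sdiff_of_subset hsub, hc]
  rw [Finset.sum_congr rfl h1, Finset.sum_const, card_powersetCard, smul_eq_mul]
  have h2 : a0 ≤ P.card := by omega
  have h3 : a1 ≤ P.card - a0 := by omega
  have e1 := Nat.choose_mul_factorial_mul_factorial h2
  have e2 := Nat.choose_mul_factorial_mul_factorial h3
  have e3 : P.card - a0 - a1 = a2 := by omega
  rw [e3] at e2
  calc P.card.choose a0 * (P.card - a0).choose a1 * (a0.factorial * a1.factorial * a2.factorial)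
      = (P.card.choose a0 * a0.factorial) *
          ((P.card - a0).choose a1 * a1.factorial * a2.factorial) := by ring
    _ = (P.card.choose a0 * a0.factorial) * (P.card - a0).factorial := by rw [e2]
    _ = P.card.factorial := e1

/-- The labeling built from two nested choices on each side. -/
def labOf (S0 S1 T0 T1 : Finset α) (w : α) : Fin 3 :=
  if w ∈ S0 ∨ w ∈ T0 then 0 else if w ∈ S1 ∨ w ∈ T1 then 1 else 2

theorem card_levels_nat (σ : α → ℤ) (hσ : ∀ w, σ w = 1 ∨ σ w = -1) (A B : Fin 3 → ℕ)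
    (hA : ∑ r, A r = (univ.filter fun w => σ w = 1).card)
    (hB : ∑ r, B r = (univ.filter fun w => σ w = -1).card) :
    (univ.filter fun ℓ : α → Fin 3 => ∀ r, cntP σ r ℓ = A r ∧ cntN σ r ℓ = B r).card =
      (sideSet (univ.filter fun w => σ w = 1) (A 0) (A 1)).card *
        (sideSet (univ.filter fun w => σ w = -1) (B 0) (B 1)).card := by
  set P := univ.filter fun w => σ w = 1 with hP
  set N := univ.filter fun w => σ w = -1 with hN
  have hA' : A 0 + A 1 + A 2 = P.card := by
    rw [← hA, Fin.sum_univ_three]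
  have hB' : B 0 + B 1 + B 2 = N.card := by
    rw [← hB, Fin.sum_univ_three]
  have hPN : ∀ w, w ∈ P → w ∉ N := by
    intro w h1 h2
    have a1 := (mem_filter.mp h1).2
    have a2 := (mem_filter.mp h2).2
    omega
  have hNP : ∀ w, w ∉ P → w ∈ N := by
    intro w h1
    rcases hσ w with h | h
    · exact absurd (show w ∈ P from mem_filter.mpr ⟨mem_univ _, h⟩) h1
    · exact mem_filter.mpr ⟨mem_univ _, h⟩
  rw [← card_product]
  -- facts about `labOf`
  have key : ∀ (y : (Σ _ : Finset α, Finset α) × (Σ _ : Finset α, Finset α)),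
      y ∈ sideSet P (A 0) (A 1) ×ˢ sideSet N (B 0) (B 1) →
      (∀ w, σ w = 1 → (labOf y.1.1 y.1.2 y.2.1 y.2.2 w = 0 ↔ w ∈ y.1.1)) ∧
      (∀ w, σ w = 1 → (labOf y.1.1 y.1.2 y.2.1 y.2.2 w = 1 ↔ w ∈ y.1.2)) ∧
      (∀ w, σ w = -1 → (labOf y.1.1 y.1.2 y.2.1 y.2.2 w = 0 ↔ w ∈ y.2.1)) ∧
      (∀ w, σ w = -1 → (labOf y.1.1 y.1.2 y.2.1 y.2.2 w = 1 ↔ w ∈ y.2.2)) ∧
      y.1.1 ⊆ P ∧ y.1.2 ⊆ P ∧ y.2.1 ⊆ N ∧ y.2.2 ⊆ N ∧ Disjoint y.1.1 y.1.2 ∧ Disjoint y.2.1 y.2.2 := by
    rintro ⟨⟨S0, S1⟩, ⟨T0, T1⟩⟩ hy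
    simp only [sideSet, mem_product, mem_sigma, mem_powersetCard] at hy
    obtain ⟨⟨⟨hS0, _⟩, hS1, _⟩, ⟨hT0, _⟩, hT1, _⟩ := hy
    have hS1P : S1 ⊆ P := hS1.trans sdiff_subset
    have hT1N : T1 ⊆ N := hT1.trans sdiff_subset
    have hdS : Disjoint S0 S1 := by
      rw [disjoint_left]
      intro a ha hb
      exact (mem_sdiff.mp (hS1 hb)).2 ha
    have hdT : Disjoint T0 T1 := by
      rw [disjoint_left]
      intro a ha hb
      exact (mem_sdiff.mp (hT1 hb)).2 ha
    have hnotP : ∀ w, σ w = 1 → w ∉ T0 ∧ w ∉ T1 := by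
      intro w hw
      have : w ∈ P := mem_filter.mpr ⟨mem_univ _, hw⟩
      exact ⟨fun h => hPN w this (hT0 h), fun h => hPN w this (hT1N h)⟩
    have hnotN : ∀ w, σ w = -1 → w ∉ S0 ∧ w ∉ S1 := by
      intro w hw
      have hN' : w ∈ N := mem_filter.mpr ⟨mem_univ _, hw⟩
      exact ⟨fun h => hPN w (hS0 h) hN', fun h => hPN w (hS1P h) hN'⟩
    refine ⟨?_, ?_, ?_, ?_, hS0, hS1P, hT0, hT1N, hdS, hdT⟩
    · intro w hw
      obtain ⟨h1, h2⟩ := hnotP w hw
      unfold labOf
      by_cases h3 : w ∈ S0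
      · simp [h3]
      · by_cases h4 : w ∈ S1 <;> simp [h1, h2, h3, h4]
    · intro w hw
      obtain ⟨h1, h2⟩ := hnotP w hw
      unfold labOf
      by_cases h3 : w ∈ S0
      · have h4 : w ∉ S1 := fun h => (disjoint_left.mp hdS h3) h
        simp [h3, h4]
      · by_cases h4 : w ∈ S1 <;> simp [h1, h2, h3, h4]
    · intro w hw
      obtain ⟨h1, h2⟩ := hnotN w hw
      unfold labOf
      by_cases h3 : w ∈ T0
      · simp [h3]
      · by_cases h4 : w ∈ T1 <;> simp [h1, h2, h3, h4]
    · intro w hw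
      obtain ⟨h1, h2⟩ := hnotN w hw
      unfold labOf
      by_cases h3 : w ∈ T0
      · have h4 : w ∉ T1 := fun h => (disjoint_left.mp hdT h3) h
        simp [h3, h4]
      · by_cases h4 : w ∈ T1 <;> simp [h1, h2, h3, h4]
  refine Finset.card_bij' (fun ℓ _ => (⟨P.filter (fun w => ℓ w = 0), P.filter (fun w => ℓ w = 1)⟩,
      ⟨N.filter (fun w => ℓ w = 0), N.filter (fun w => ℓ w = 1)⟩))
    (fun y _ => labOf y.1.1 y.1.2 y.2.1 y.2.2) ?_ ?_ ?_ ?_
  · -- maps into
    intro ℓ hℓ
    have hℓ' := (mem_filter.mp hℓ).2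
    have hc : ∀ r, (P.filter fun w => ℓ w = r).card = A r := by
      intro r
      rw [← (hℓ' r).1, hP, filter_filter]
      rfl
    have hd : ∀ r, (N.filter fun w => ℓ w = r).card = B r := by
      intro r
      rw [← (hℓ' r).2, hN, filter_filter]
      rfl
    simp only [sideSet, mem_product, mem_sigma, mem_powersetCard]
    refine ⟨⟨⟨filter_subset _ _, hc 0⟩, ?_, hc 1⟩, ⟨filter_subset _ _, hd 0⟩, ?_, hd 1⟩
    · intro w hw
      obtain ⟨h1, h2⟩ := mem_filter.mp hw
      refine mem_sdiff.mpr ⟨h1, fun h => ?_⟩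
      have := (mem_filter.mp h).2
      rw [h2] at this
      exact absurd this (by decide)
    · intro w hw
      obtain ⟨h1, h2⟩ := mem_filter.mp hw
      refine mem_sdiff.mpr ⟨h1, fun h => ?_⟩
      have := (mem_filter.mp h).2
      rw [h2] at this
      exact absurd this (by decide)
  · -- inverse maps into
    intro y hy
    obtain ⟨k1, k2, k3, k4, hS0, hS1, hT0, hT1, hdS, hdT⟩ := key y hy
    have hy' := hy
    rcases y with ⟨⟨S0, S1⟩, ⟨T0, T1⟩⟩
    simp only [sideSet, mem_product, mem_sigma, mem_powersetCard] at hy'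
    obtain ⟨⟨⟨_, hcS0⟩, _, hcS1⟩, ⟨_, hcT0⟩, _, hcT1⟩ := hy'
    simp only at k1 k2 k3 k4 hS0 hS1 hT0 hT1 hdS hdT
    have eP0 : univ.filter (fun w => σ w = 1 ∧ labOf S0 S1 T0 T1 w = 0) = S0 := by
      ext w
      simp only [mem_filter, mem_univ, true_and]
      constructor
      · rintro ⟨h1, h2⟩; exact (k1 w h1).mp h2
      · intro h
        have h1 : σ w = 1 := (mem_filter.mp (hS0 h)).2
        exact ⟨h1, (k1 w h1).mpr h⟩
    have eP1 : univ.filter (fun w => σ w = 1 ∧ labOf S0 S1 T0 T1 w = 1) = S1 := by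
      ext w
      simp only [mem_filter, mem_univ, true_and]
      constructor
      · rintro ⟨h1, h2⟩; exact (k2 w h1).mp h2
      · intro h
        have h1 : σ w = 1 := (mem_filter.mp (hS1 h)).2
        exact ⟨h1, (k2 w h1).mpr h⟩
    have eN0 : univ.filter (fun w => σ w = -1 ∧ labOf S0 S1 T0 T1 w = 0) = T0 := by
      ext w
      simp only [mem_filter, mem_univ, true_and]
      constructor
      · rintro ⟨h1, h2⟩; exact (k3 w h1).mp h2
      · intro h
        have h1 : σ w = -1 := (mem_filter.mp (hT0 h)).2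
        exact ⟨h1, (k3 w h1).mpr h⟩
    have eN1 : univ.filter (fun w => σ w = -1 ∧ labOf S0 S1 T0 T1 w = 1) = T1 := by
      ext w
      simp only [mem_filter, mem_univ, true_and]
      constructor
      · rintro ⟨h1, h2⟩; exact (k4 w h1).mp h2
      · intro h
        have h1 : σ w = -1 := (mem_filter.mp (hT1 h)).2
        exact ⟨h1, (k4 w h1).mpr h⟩
    refine mem_filter.mpr ⟨mem_univ _, ?_⟩
    -- sizes of the third fibre
    have hsplitP : (univ.filter (fun w => σ w = 1 ∧ labOf S0 S1 T0 T1 w = 0)).card +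
        (univ.filter (fun w => σ w = 1 ∧ labOf S0 S1 T0 T1 w = 1)).card +
        (univ.filter (fun w => σ w = 1 ∧ labOf S0 S1 T0 T1 w = 2)).card = P.card := by
      have := card_eq_sum_card_fiberwise (s := P) (t := (univ : Finset (Fin 3)))
        (f := fun w => labOf S0 S1 T0 T1 w) (fun _ _ => mem_univ _)
      rw [this, Fin.sum_univ_three, hP]
      simp only [filter_filter]
    have hsplitN : (univ.filter (fun w => σ w = -1 ∧ labOf S0 S1 T0 T1 w = 0)).card +
        (univ.filter (fun w => σ w = -1 ∧ labOf S0 S1 T0 T1 w = 1)).card +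
        (univ.filter (fun w => σ w = -1 ∧ labOf S0 S1 T0 T1 w = 2)).card = N.card := by
      have := card_eq_sum_card_fiberwise (s := N) (t := (univ : Finset (Fin 3)))
        (f := fun w => labOf S0 S1 T0 T1 w) (fun _ _ => mem_univ _)
      rw [this, Fin.sum_univ_three, hN]
      simp only [filter_filter]
    rw [eP0, eP1, hcS0, hcS1] at hsplitP
    rw [eN0, eN1, hcT0, hcT1] at hsplitN
    intro r
    unfold cntP cntN
    fin_cases r
    · refine ⟨?_, ?_⟩
      · show (univ.filter (fun w => σ w = 1 ∧ labOf S0 S1 T0 T1 w = 0)).card = A 0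
        rw [eP0, hcS0]
      · show (univ.filter (fun w => σ w = -1 ∧ labOf S0 S1 T0 T1 w = 0)).card = B 0
        rw [eN0, hcT0]
    · refine ⟨?_, ?_⟩
      · show (univ.filter (fun w => σ w = 1 ∧ labOf S0 S1 T0 T1 w = 1)).card = A 1
        rw [eP1, hcS1]
      · show (univ.filter (fun w => σ w = -1 ∧ labOf S0 S1 T0 T1 w = 1)).card = B 1
        rw [eN1, hcT1]
    · refine ⟨?_, ?_⟩
      · show (univ.filter (fun w => σ w = 1 ∧ labOf S0 S1 T0 T1 w = 2)).card = A 2
        omega
      · show (univ.filter (fun w => σ w = -1 ∧ labOf S0 S1 T0 T1 w = 2)).card = B 2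
        omega
  · -- left inverse
    intro ℓ _
    funext w
    simp only [labOf, mem_filter]
    rcases hσ w with hw | hw
    · have h1 : w ∈ P := mem_filter.mpr ⟨mem_univ _, hw⟩
      have h2 : w ∉ N := hPN w h1
      simp only [h1, h2, true_and, false_and, or_false]
      by_cases h3 : ℓ w = 0
      · simp [h3]
      · by_cases h4 : ℓ w = 1
        · simp [h4]
        · simp only [h3, h4, if_false]
          generalize ℓ w = x at h3 h4 ⊢
          fin_cases x <;> simp_all
    · have h2 : w ∈ N := mem_filter.mpr ⟨mem_univ _, hw⟩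
      have h1 : w ∉ P := fun h => hPN w h h2
      simp only [h1, h2, true_and, false_and, false_or]
      by_cases h3 : ℓ w = 0
      · simp [h3]
      · by_cases h4 : ℓ w = 1
        · simp [h4]
        · simp only [h3, h4, if_false]
          generalize ℓ w = x at h3 h4 ⊢
          fin_cases x <;> simp_all
  · -- right inverse
    intro y hy
    obtain ⟨k1, k2, k3, k4, hS0, hS1, hT0, hT1, _, _⟩ := key y hy
    rcases y with ⟨⟨S0, S1⟩, ⟨T0, T1⟩⟩
    simp only at k1 k2 k3 k4 hS0 hS1 hT0 hT1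
    have a0 : P.filter (fun w => labOf S0 S1 T0 T1 w = 0) = S0 := by
      ext w
      simp only [mem_filter]
      constructor
      · rintro ⟨h1, h2⟩; exact (k1 w (mem_filter.mp h1).2).mp h2
      · intro h
        exact ⟨hS0 h, (k1 w (mem_filter.mp (hS0 h)).2).mpr h⟩
    have a1 : P.filter (fun w => labOf S0 S1 T0 T1 w = 1) = S1 := by
      ext w
      simp only [mem_filter]
      constructor
      · rintro ⟨h1, h2⟩; exact (k2 w (mem_filter.mp h1).2).mp h2
      · intro h
        exact ⟨hS1 h, (k2 w (mem_filter.mp (hS1 h)).2).mpr h⟩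
    have a2 : N.filter (fun w => labOf S0 S1 T0 T1 w = 0) = T0 := by
      ext w
      simp only [mem_filter]
      constructor
      · rintro ⟨h1, h2⟩; exact (k3 w (mem_filter.mp h1).2).mp h2
      · intro h
        exact ⟨hT0 h, (k3 w (mem_filter.mp (hT0 h)).2).mpr h⟩
    have a3 : N.filter (fun w => labOf S0 S1 T0 T1 w = 1) = T1 := by
      ext w
      simp only [mem_filter]
      constructor
      · rintro ⟨h1, h2⟩; exact (k4 w (mem_filter.mp h1).2).mp h2
      · intro h
        exact ⟨hT1 h, (k4 w (mem_filter.mp (hT1 h)).2).mpr h⟩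
    simp only [a0, a1, a2, a3]

/-- **The count of labelings with prescribed fibre sizes.** -/
theorem card_levels (σ : α → ℤ) (hσ : ∀ w, σ w = 1 ∨ σ w = -1) (A B : Fin 3 → ℕ)
    (hA : ∑ r, A r = (univ.filter fun w => σ w = 1).card)
    (hB : ∑ r, B r = (univ.filter fun w => σ w = -1).card) :
    ((univ.filter fun ℓ : α → Fin 3 => ∀ r, cntP σ r ℓ = A r ∧ cntN σ r ℓ = B r).card : ℝ) *
        ∏ r, ((A r).factorial * (B r).factorial : ℝ) =
      ((univ.filter fun w => σ w = 1).card.factorial : ℝ) *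
        ((univ.filter fun w => σ w = -1).card.factorial : ℝ) := by
  rw [card_levels_nat σ hσ A B hA hB, Fin.prod_univ_three]
  have hA' : A 0 + A 1 + A 2 = (univ.filter fun w => σ w = 1).card := by
    rw [← hA, Fin.sum_univ_three]
  have hB' : B 0 + B 1 + B 2 = (univ.filter fun w => σ w = -1).card := by
    rw [← hB, Fin.sum_univ_three]
  have e1 := card_sideSet (univ.filter fun w => σ w = 1) (A 0) (A 1) (A 2) hA'
  have e2 := card_sideSet (univ.filter fun w => σ w = -1) (B 0) (B 1) (B 2) hB'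
  rw [← e1, ← e2]
  push_cast
  ring

end

end Crest.Agent.Lib.Switch
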