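/-
S0453, T9 in the blueprint's mean-zero form: `triple_gram`, from the bijection of
`TripleBridge` and helper11's `table_gram`.
-/
import Crest.Agent.Lib.Switch.TripleBridge
import Crest.Agent.Lib.Switch.Table

set_option autoImplicit false

namespace Crest.Agent.Lib.Switch

open Finset Crest.SwitchChain

namespace Triple

lemma avg_transfer {β τ γ γ' : Type*} [DecidableEq γ] [DecidableEq γ'] {F : Finset β} {T : Finset τ}
    (φ : β → τ) (hφ : Set.BijOn φ F T) (κ₁ : β → γ) (κ₂ : τ → γ')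
    (hk : ∀ a ∈ F, ∀ b ∈ F, κ₁ a = κ₁ b ↔ κ₂ (φ a) = κ₂ (φ b)) (h : β → ℝ) (h₂ : τ → ℝ)
    (hh : ∀ a ∈ F, h₂ (φ a) = h a) {a : β} (ha : a ∈ F) :
    avg F κ₁ h a = avg T κ₂ h₂ (φ a) := by
  unfold avg
  have hmaps : ∀ b ∈ F.filter (fun b => κ₁ b = κ₁ a),
      φ b ∈ T.filter (fun c => κ₂ c = κ₂ (φ a)) := by
    intro b hb
    obtain ⟨hb1, hb2⟩ := mem_filter.mp hb
    exact mem_filter.mpr ⟨hφ.1 hb1, (hk b hb1 a ha).mp hb2⟩
  have hinj : Set.InjOn φ (F.filter (fun b => κ₁ b = κ₁ a) : Set β) := by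
    intro b hb c hc hbc
    exact hφ.2.1 (mem_filter.mp (mem_coe.mp hb)).1 (mem_filter.mp (mem_coe.mp hc)).1 hbc
  have hsurj : Set.SurjOn φ (F.filter (fun b => κ₁ b = κ₁ a) : Set β)
      (T.filter (fun c => κ₂ c = κ₂ (φ a)) : Set τ) := by
    intro c hc
    obtain ⟨hc1, hc2⟩ := mem_filter.mp (mem_coe.mp hc)
    obtain ⟨b, hb, rfl⟩ := hφ.2.2 hc1
    refine ⟨b, mem_coe.mpr (mem_filter.mpr ⟨hb, (hk b hb a ha).mpr hc2⟩), rfl⟩
  rw [sum_nbij φ hmaps hinj hsurj (fun b hb => (hh b (mem_filter.mp hb).1).symm),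
    card_nbij φ hmaps hinj hsurj]

lemma sum_transfer {β τ : Type*} {F : Finset β} {T : Finset τ} (φ : β → τ)
    (hφ : Set.BijOn φ F T) (g : β → ℝ) (g₂ : τ → ℝ) (hg : ∀ a ∈ F, g a = g₂ (φ a)) :
    ∑ a ∈ F, g a = ∑ c ∈ T, g₂ c :=
  sum_nbij φ (fun a ha => hφ.1 ha) hφ.2.1 hφ.2.2 hg

end Triple

open Triple in
open Classical in
/-- T9. -/
theorem triple_gram {n : ℕ} (d : Fin n → ℕ) (t : Finset (Fin n)) (ht : t.card = 3)
    (K : Finset (Edge n)) (h : Finset (Edge n) → ℝ)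
    (h0 : ∑ G ∈ (realizations d).filter (fun G => keyOf t G = K), h G = 0) :
    ∑ p ∈ t.powersetCard 2, ∑ G ∈ (realizations d).filter (fun G => keyOf t G = K),
        avg ((realizations d).filter (fun G => keyOf t G = K)) (keyOf p) h G ^ 2 ≤
      2 * ∑ G ∈ (realizations d).filter (fun G => keyOf t G = K), h G ^ 2 := by
  -- the labelling of the triple
  obtain ⟨z, hz, rfl⟩ : ∃ z : Fin 3 → Fin n, Function.Injective z ∧ tt z = t := by
    refine ⟨t.orderEmbOfFin ht, (t.orderEmbOfFin ht).injective, ?_⟩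
    unfold tt
    ext v
    simp only [mem_image, mem_univ, true_and]
    constructor
    · rintro ⟨r, rfl⟩
      exact orderEmbOfFin_mem t ht r
    · intro hv
      have : v ∈ Set.range (t.orderEmbOfFin ht) := by
        rw [range_orderEmbOfFin]; exact hv
      exact this
  change ∑ p ∈ (tt z).powersetCard 2, ∑ G ∈ FF d z K, avg (FF d z K) (keyOf p) h G ^ 2 ≤
    2 * ∑ G ∈ FF d z K, h G ^ 2
  change ∑ G ∈ FF d z K, h G = 0 at h0
  rcases (FF d z K).eq_empty_or_nonempty with hF | ⟨G0, hG0⟩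
  · rw [hF]; simp
  have hbij : Set.BijOn (lab d z K) (FF d z K : Set (Finset (Edge n)))
      (Crest.Agent.Lib.Switch.tableSet (sgn d z K) (dlt d z K) : Set (Col d z K → Fin 3)) :=
    lab_bijOn d K hz hG0
  -- the function on tables
  let h₂ : (Col d z K → Fin 3) → ℝ := fun ℓ => h (Function.invFunOn (lab d z K) (FF d z K : Set _) ℓ)
  have hh : ∀ G ∈ FF d z K, h₂ (lab d z K G) = h G := by
    intro G hG
    show h (Function.invFunOn (lab d z K) (FF d z K : Set _) (lab d z K G)) = h G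
    rw [hbij.injOn.leftInvOn_invFunOn (mem_coe.mpr hG)]
  have h02 : ∑ ℓ ∈ Crest.Agent.Lib.Switch.tableSet (sgn d z K) (dlt d z K), h₂ ℓ = 0 := by
    rw [← h0]
    exact (sum_transfer (lab d z K) hbij h h₂ (fun G hG => (hh G hG).symm)).symm
  have hsign : ∀ o, sgn d z K o = 1 ∨ sgn d z K o = -1 := by
    intro o
    unfold sgn
    split_ifs
    · exact Or.inl rfl
    · exact Or.inr rfl
  have htable := table_gram (sgn d z K) hsign (dlt d z K) h₂ h02
  rw [sum_powersetCard_erase hz]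
  have hR : ∑ G ∈ FF d z K, h G ^ 2 =
      ∑ ℓ ∈ Crest.Agent.Lib.Switch.tableSet (sgn d z K) (dlt d z K), h₂ ℓ ^ 2 :=
    sum_transfer (lab d z K) hbij _ _ (fun G hG => by rw [hh G hG])
  have hL : ∀ r : Fin 3, ∑ G ∈ FF d z K, avg (FF d z K) (keyOf ((tt z).erase (z r))) h G ^ 2 =
      ∑ ℓ ∈ Crest.Agent.Lib.Switch.tableSet (sgn d z K) (dlt d z K),
        avg (Crest.Agent.Lib.Switch.tableSet (sgn d z K) (dlt d z K))
          (Crest.Agent.Lib.Switch.rowKey r) h₂ ℓ ^ 2 := by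
    intro r
    refine sum_transfer (lab d z K) hbij _ _ (fun G hG => ?_)
    rw [avg_transfer (lab d z K) hbij _ (Crest.Agent.Lib.Switch.rowKey r) ?_ h h₂ hh hG]
    intro a ha b hb
    rw [key_iff d K hz ha hb]
    exact (rowKey_iff d K hz ha hb r).symm
  rw [hR, sum_congr rfl (fun r _ => hL r)]
  exact htable

end Crest.Agent.Lib.Switch
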